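import Mathlib.GroupTheory.Nilpotent

/-!
The dilation lemma: an endomorphism acting as the `q`-th power on the abelianization acts as the
`q ^ (n+1)`-th power on the `n`-th layer of the lower central series.
-/

namespace Vale.Agent.P058

open Subgroup
open scoped commutatorElement

variable {G : Type*} [Group G]

/-- shorthand for the lower central series of the whole group -/
abbrev lcs (G : Type*) [Group G] (n : ℕ) : Subgroup G := (⊤ : Subgroup G).lowerCentralSeries n

lemma lcs_map {K : Type*} [Group K] (f : G →* K) (n : ℕ) {g : G} (hg : g ∈ lcs G n) :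
    f g ∈ lcs K n := by
  have h1 : f g ∈ (lcs G n).map f := Subgroup.mem_map_of_mem f hg
  rw [map_lowerCentralSeries] at h1
  exact lowerCentralSeries_mono n le_top h1

lemma lcs_comm {n : ℕ} {x : G} (hx : x ∈ lcs G n) (y : G) : ⁅x, y⁆ ∈ lcs G (n + 1) :=
  commutator_mem_commutator hx (mem_top y)

lemma lcs_succ_le (n : ℕ) : lcs G (n + 1) ≤ lcs G n :=
  Subgroup.lowerCentralSeries_antitone _ (Nat.le_succ n)

lemma comm_right_mul_of_central {Q : Type*} [Group Q] {x : Q}
    (hx : ∀ y, ⁅x, y⁆ ∈ center Q) (y y' : Q) : ⁅x, y * y'⁆ = ⁅x, y⁆ * ⁅x, y'⁆ := by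
  rw [commutatorElement_mul_right_eq_mul_conj]
  have := (mem_center_iff.mp (hx y')) y
  rw [mul_assoc, mul_assoc, ← mul_assoc y, this]
  simp [mul_assoc]

lemma comm_left_pow_of_central {Q : Type*} [Group Q] {x : Q}
    (hx : ∀ y, ⁅x, y⁆ ∈ center Q) (y : Q) (a : ℕ) : ⁅x ^ a, y⁆ = ⁅x, y⁆ ^ a := by
  induction a with
  | zero => simp
  | succ a ih =>
    rw [pow_succ, commutatorElement_mul_left_eq_conj_mul, ih]
    have := (mem_center_iff.mp (hx y)) (x ^ a)
    rw [this, pow_succ']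
    simp [mul_assoc]

/-- the homomorphism `y ↦ ⁅x, y⁆` into the center -/
def commHom {Q : Type*} [Group Q] {x : Q} (hx : ∀ y, ⁅x, y⁆ ∈ center Q) : Q →* center Q where
  toFun y := ⟨⁅x, y⁆, hx y⟩
  map_one' := by simp
  map_mul' y y' := by
    ext
    simp [comm_right_mul_of_central hx]

lemma comm_right_of_central {Q : Type*} [Group Q] {x : Q}
    (hx : ∀ y, ⁅x, y⁆ ∈ center Q) (y v : Q) (hv : v ∈ lcs Q 1) (b : ℕ) :
    ⁅x, v * y ^ b⁆ = ⁅x, y⁆ ^ b := by
  have h1 : commHom hx v = 1 := by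
    have h2 : commHom hx v ∈ lcs (center Q) 1 := lcs_map _ 1 hv
    have h3 : lcs (center Q) 1 = ⊥ := by
      rw [lcs, top_lowerCentralSeries_one]
      exact _root_.commutator_eq_bot _
    rw [h3] at h2
    simpa using h2
  have h4 : commHom hx (v * y ^ b) = (commHom hx y) ^ b := by
    rw [map_mul, h1, one_mul, map_pow]
  have := congrArg Subtype.val h4
  simpa [commHom] using this

lemma mk_central {n : ℕ} {x : G} (hx : x ∈ lcs G n) :
    (QuotientGroup.mk' (lcs G (n + 1)) x) ∈ center (G ⧸ lcs G (n + 1)) := by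
  rw [mem_center_iff]
  intro g
  obtain ⟨y, rfl⟩ := QuotientGroup.mk'_surjective _ g
  symm
  rw [← commutatorElement_eq_one_iff_mul_comm, ← map_commutatorElement]
  exact (QuotientGroup.eq_one_iff _).mpr (lcs_comm hx y)

lemma mk_eq_iff (N : Subgroup G) [N.Normal] (a b : G) :
    QuotientGroup.mk' N a = QuotientGroup.mk' N b ↔ a * b⁻¹ ∈ N := by
  rw [← mul_inv_eq_one, ← map_inv, ← map_mul]
  exact QuotientGroup.eq_one_iff _

theorem dilation (φ : G →* G) (q : ℕ) (hφ : ∀ g, φ g * (g ^ q)⁻¹ ∈ lcs G 1) (n : ℕ) :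
    ∀ g ∈ lcs G n, φ g * (g ^ (q ^ (n + 1)))⁻¹ ∈ lcs G (n + 1) := by
  induction n with
  | zero => intro g _; simpa using hφ g
  | succ n ih =>
    intro g hg
    set π := QuotientGroup.mk' (lcs G (n + 2)) with hπ
    rw [← mk_eq_iff]
    change π (φ g) = π (g ^ (q ^ (n + 2)))
    rw [map_pow]
    rw [Subgroup.mem_lowerCentralSeries_succ_iff] at hg
    induction hg using closure_induction with
    | mem g hg =>
      obtain ⟨x, hx, y, -, rfl⟩ := hg
      have hc : ∀ x' ∈ lcs G n, ∀ z, ⁅π x', z⁆ ∈ center (G ⧸ lcs G (n + 2)) := by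
        intro x' hx' z
        obtain ⟨z, rfl⟩ := QuotientGroup.mk'_surjective _ z
        rw [← map_commutatorElement]
        exact mk_central (lcs_comm hx' z)
      have e1 : φ y = (φ y * (y ^ q)⁻¹) * y ^ q := by simp
      have e2 : φ x = (φ x * (x ^ (q ^ (n + 1)))⁻¹) * x ^ (q ^ (n + 1)) := by simp
      have hu : π (φ x * (x ^ (q ^ (n + 1)))⁻¹) ∈ center (G ⧸ lcs G (n + 2)) :=
        mk_central (ih x hx)
      rw [map_commutatorElement, map_commutatorElement, map_commutatorElement, e1, map_mul,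
        map_pow, comm_right_of_central (hc _ (lcs_map φ n hx)) _ _ (lcs_map π 1 (hφ y)), e2,
        map_mul, commutatorElement_mul_left_eq_conj_mul]
      have h5 : ⁅π (φ x * (x ^ (q ^ (n + 1)))⁻¹), π y⁆ = 1 := by
        rw [commutatorElement_eq_one_iff_mul_comm]
        exact ((mem_center_iff.mp hu) _).symm
      rw [h5, mul_one, ← (mem_center_iff.mp hu), mul_assoc, mul_inv_cancel, mul_one, map_pow,
        comm_left_pow_of_central (hc x hx), ← pow_mul, ← pow_succ]
    | one => rw [map_one, map_one, one_pow]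
    | mul a b ha hb iha ihb =>
      have hca : π a ∈ center (G ⧸ lcs G (n + 2)) := mk_central ha
      have hcomm : Commute (π a) (π b) := ((mem_center_iff.mp hca) _).symm
      rw [map_mul, map_mul, iha, ihb, map_mul, hcomm.mul_pow]
    | inv a _ iha => rw [map_inv, map_inv, iha, map_inv, inv_pow]

/-- One dilation step for a pair of elements. -/
theorem dilation_step (φ : G →* G) (q : ℕ) (hφ : ∀ g, φ g * (g ^ q)⁻¹ ∈ lcs G 1) (n : ℕ)
    (u v : G) (h : u * v⁻¹ ∈ lcs G n) :
    (u ^ (q ^ (n + 1)) * φ v) * (v ^ (q ^ (n + 1)) * φ u)⁻¹ ∈ lcs G (n + 1) := by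
  rw [← mk_eq_iff]
  set π := QuotientGroup.mk' (lcs G (n + 1)) with hπ
  have hc : π (u * v⁻¹) ∈ center (G ⧸ lcs G (n + 1)) := mk_central h
  have hd : π (φ (u * v⁻¹)) = π (u * v⁻¹) ^ (q ^ (n + 1)) := by
    rw [← map_pow]
    exact (mk_eq_iff _ _ _).mpr (dilation φ q hφ n _ h)
  have e : u = (u * v⁻¹) * v := by simp
  generalize u * v⁻¹ = e' at *
  subst e
  have hcomm : Commute (π e') (π v) := ((mem_center_iff.mp hc) _).symm
  simp only [map_mul, map_pow, hd, hcomm.mul_pow]
  have h2 : Commute (π e' ^ (q ^ (n + 1))) (π v ^ (q ^ (n + 1))) := hcomm.pow_pow _ _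
  rw [h2.eq, mul_assoc]

end Vale.Agent.P058
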