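import Mathlib.GroupTheory.FreeGroup.Basic
import Mathlib.Data.Real.Basic
import Mathlib.Algebra.Order.Archimedean.Real.Basic
import Mathlib.Tactic
import Vale.Agent.P058.Nilp

/-!
Lists of columns, their squared distance matrices and their evaluations in the free group.
-/

namespace Vale.Agent.P058

variable {ι : Type*}

/-- squared distance matrix of one column -/
def degc (w : ι → ℝ) : ι → ι → ℝ := fun i j => (w i - w j) ^ 2

/-- squared distance matrix of a list of columns -/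
def deg (U : List (ι → ℝ)) : ι → ι → ℝ := (U.map degc).sum

@[simp] lemma deg_nil : deg ([] : List (ι → ℝ)) = 0 := rfl

@[simp] lemma deg_cons (w : ι → ℝ) (U : List (ι → ℝ)) : deg (w :: U) = degc w + deg U := by
  simp [deg]

@[simp] lemma deg_append (U V : List (ι → ℝ)) : deg (U ++ V) = deg U + deg V := by
  simp [deg]

lemma deg_perm {U V : List (ι → ℝ)} (h : U.Perm V) : deg U = deg V :=
  (h.map _).sum_eq

lemma deg_map_smul (c : ℝ) (U : List (ι → ℝ)) :
    deg (U.map (fun w => c • w)) = (c ^ 2) • deg U := by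
  induction U with
  | nil => simp
  | cons w U ih =>
    rw [List.map_cons, deg_cons, deg_cons, ih, smul_add]
    congr 1
    ext i j
    simp [degc]; ring

/-- the word of row `i` in the free group -/
def ev (U : List (ι → ℝ)) (i : ι) : FreeGroup ℝ := (U.map (fun w => FreeGroup.of (w i))).prod

@[simp] lemma ev_nil (i : ι) : ev ([] : List (ι → ℝ)) i = 1 := rfl

@[simp] lemma ev_cons (w : ι → ℝ) (U : List (ι → ℝ)) (i : ι) :
    ev (w :: U) i = FreeGroup.of (w i) * ev U i := by simp [ev]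

@[simp] lemma ev_append (U V : List (ι → ℝ)) (i : ι) : ev (U ++ V) i = ev U i * ev V i := by
  simp [ev]

/-- the `N`-fold concatenation -/
def rep (N : ℕ) (U : List (ι → ℝ)) : List (ι → ℝ) := (List.replicate N U).flatten

lemma rep_succ (N : ℕ) (U : List (ι → ℝ)) : rep (N + 1) U = U ++ rep N U := by
  simp [rep, List.replicate_succ]

lemma deg_rep (N : ℕ) (U : List (ι → ℝ)) : deg (rep N U) = (N : ℝ) • deg U := by
  induction N with
  | zero => simp [rep]
  | succ N ih => rw [rep_succ, deg_append, ih]; push_cast; rw [add_smul, one_smul, add_comm]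

lemma ev_rep (N : ℕ) (U : List (ι → ℝ)) (i : ι) : ev (rep N U) i = (ev U i) ^ N := by
  induction N with
  | zero => simp [rep]
  | succ N ih => rw [rep_succ, ev_append, ih, pow_succ']

/-- repeat every column `q` times -/
def dil (q : ℕ) (U : List (ι → ℝ)) : List (ι → ℝ) := U.flatMap (fun w => rep q [w])

lemma dil_cons (q : ℕ) (w : ι → ℝ) (U : List (ι → ℝ)) :
    dil q (w :: U) = rep q [w] ++ dil q U := by simp [dil]

lemma deg_dil (q : ℕ) (U : List (ι → ℝ)) : deg (dil q U) = (q : ℝ) • deg U := by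
  induction U with
  | nil => simp [dil]
  | cons w U ih => rw [dil_cons, deg_append, ih, deg_rep]; simp [smul_add]

/-- the endomorphism raising every generator to the power `q` -/
def powHom (q : ℕ) : FreeGroup ℝ →* FreeGroup ℝ := FreeGroup.lift (fun a => FreeGroup.of a ^ q)

lemma ev_dil (q : ℕ) (U : List (ι → ℝ)) (i : ι) : ev (dil q U) i = powHom q (ev U i) := by
  induction U with
  | nil => simp [dil]
  | cons w U ih => rw [dil_cons, ev_append, ih, ev_rep]; simp [powHom]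

lemma powHom_spec (q : ℕ) (g : FreeGroup ℝ) :
    powHom q g * (g ^ q)⁻¹ ∈ lcs (FreeGroup ℝ) 1 := by
  rw [← mk_eq_iff]
  set π := QuotientGroup.mk' (lcs (FreeGroup ℝ) 1) with hπ
  have hc : ∀ x, π x ∈ Subgroup.center _ := fun x => mk_central (n := 0) (Subgroup.mem_top x)
  rw [map_pow]
  induction g using FreeGroup.induction_on with
  | C1 => rw [map_one, map_one, one_pow]
  | of a => rw [powHom, FreeGroup.lift_apply_of, map_pow]
  | inv_of a ih => rw [map_inv, map_inv, ih, map_inv, inv_pow]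
  | mul a b iha ihb =>
    have hcomm : Commute (π a) (π b) := ((Subgroup.mem_center_iff.mp (hc a)) _).symm
    rw [map_mul, map_mul, iha, ihb, map_mul, hcomm.mul_pow]

lemma ev_perm {U V : List (ι → ℝ)} (i : ι) (h : (U.map (· i)).Perm (V.map (· i))) :
    ev U i * (ev V i)⁻¹ ∈ lcs (FreeGroup ℝ) 1 := by
  rw [← mk_eq_iff]
  set π := QuotientGroup.mk' (lcs (FreeGroup ℝ) 1) with hπ
  have hc : ∀ x, π x ∈ Subgroup.center _ := fun x => mk_central (n := 0) (Subgroup.mem_top x)
  have e : ∀ W : List (ι → ℝ), π (ev W i) = ((W.map (· i)).map (fun a => π (FreeGroup.of a))).prod := by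
    intro W
    induction W with
    | nil => rw [ev_nil, map_one]; rfl
    | cons w W ih => rw [ev_cons, map_mul, ih, List.map_cons, List.map_cons, List.prod_cons]
  rw [e, e]
  apply List.Perm.prod_eq' (h.map _)
  apply List.pairwise_of_forall_mem_list
  intro a ha b _
  obtain ⟨x, -, rfl⟩ := List.mem_map.mp ha
  exact ((Subgroup.mem_center_iff.mp (hc _)) _).symm

lemma ev_map_smul (c : ℝ) (U : List (ι → ℝ)) (i : ι) :
    ev (U.map (fun w => c • w)) i = FreeGroup.map (fun a => c * a) (ev U i) := by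
  induction U with
  | nil => simp
  | cons w U ih => simp [ih]

/-- the big ratio condition at the level of multisets -/
def ABR (δ : ι → ι → ℝ) : Prop :=
  ∀ ρ : ℝ, 0 < ρ → ∃ (U V : List (ι → ℝ)) (s t : ℝ), 0 < s ∧ 0 ≤ t ∧ t ≤ ρ * s ∧
    deg U = s • δ ∧ deg V = t • δ ∧ ∀ i, (U.map (· i)).Perm (V.map (· i))

/-- the big ratio condition modulo a term of the lower central series -/
def ABRc (δ : ι → ι → ℝ) (n : ℕ) : Prop :=
  ∀ ρ : ℝ, 0 < ρ → ∃ (U V : List (ι → ℝ)) (s t : ℝ), 0 < s ∧ 0 ≤ t ∧ t ≤ ρ * s ∧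
    deg U = s • δ ∧ deg V = t • δ ∧ ∀ i, ev U i * (ev V i)⁻¹ ∈ lcs (FreeGroup ℝ) n

lemma ABR.abrc_succ {δ : ι → ι → ℝ} (h : ABR δ) (n : ℕ) : ABRc δ (n + 1) := by
  induction n with
  | zero =>
    intro ρ hρ
    obtain ⟨U, V, s, t, hs, ht, hts, hU, hV, hp⟩ := h ρ hρ
    exact ⟨U, V, s, t, hs, ht, hts, hU, hV, fun i => ev_perm i (hp i)⟩
  | succ n ih =>
    intro ρ hρ
    obtain ⟨U, V, s, t, hs, ht, hts, hU, hV, hp⟩ := ih (ρ / 2) (by positivity)
    obtain ⟨q, hq⟩ := exists_nat_gt (max (2 / ρ) 1)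
    have hq1 : (1 : ℝ) < q := lt_of_le_of_lt (le_max_right _ _) hq
    have hq2 : 2 / ρ < q := lt_of_le_of_lt (le_max_left _ _) hq
    have hq0 : (0 : ℝ) < q := by linarith
    refine ⟨rep (q ^ (n + 2)) U ++ dil q V, rep (q ^ (n + 2)) V ++ dil q U,
      (q : ℝ) ^ (n + 2) * s + q * t, (q : ℝ) ^ (n + 2) * t + q * s, by positivity, by positivity,
      ?_, ?_, ?_, ?_⟩
    · have h1 : (q : ℝ) * q ≤ (q : ℝ) ^ (n + 2) := by
        rw [pow_add, pow_two]
        have : (1 : ℝ) ≤ (q : ℝ) ^ n := one_le_pow₀ hq1.le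
        nlinarith [mul_pos hq0 hq0]
      have h2 : 2 < ρ * q := by
        rw [div_lt_iff₀ hρ] at hq2; linarith
      have h3 : (q : ℝ) * s ≤ ρ / 2 * ((q : ℝ) ^ (n + 2) * s) := by
        have : (q : ℝ) ≤ ρ / 2 * (q : ℝ) ^ (n + 2) := by nlinarith
        nlinarith
      have h4 : (q : ℝ) ^ (n + 2) * t ≤ ρ / 2 * ((q : ℝ) ^ (n + 2) * s) := by
        have : (0 : ℝ) < (q : ℝ) ^ (n + 2) := by positivity
        nlinarith
      have h5 : 0 ≤ ρ * (q * t) := by positivity
      nlinarith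
    · rw [deg_append, deg_rep, deg_dil, hU, hV, smul_smul, smul_smul, ← add_smul]; push_cast; rfl
    · rw [deg_append, deg_rep, deg_dil, hU, hV, smul_smul, smul_smul, ← add_smul]; push_cast; rfl
    · intro i
      rw [ev_append, ev_append, ev_rep, ev_rep, ev_dil, ev_dil]
      exact dilation_step (powHom q) q (powHom_spec q) (n + 1) _ _ (hp i)

lemma ABR.abrc {δ : ι → ι → ℝ} (h : ABR δ) (n : ℕ) : ABRc δ n := by
  intro ρ hρ
  obtain ⟨U, V, s, t, hs, ht, hts, hU, hV, hp⟩ := h.abrc_succ n ρ hρ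
  exact ⟨U, V, s, t, hs, ht, hts, hU, hV, fun i => lcs_succ_le n (hp i)⟩

/-- prescribed difference of degrees, small lower degree -/
lemma ABR.exists_pair {δ : ι → ι → ℝ} (h : ABR δ) (n : ℕ) {Δ η : ℝ} (hΔ : 0 < Δ) (hη : 0 < η) :
    ∃ (U V : List (ι → ℝ)) (t : ℝ), 0 ≤ t ∧ t ≤ η ∧
      deg U = (t + Δ) • δ ∧ deg V = t • δ ∧ ∀ i, ev U i * (ev V i)⁻¹ ∈ lcs (FreeGroup ℝ) n := by
  obtain ⟨U, V, s, t, hs, ht, hts, hU, hV, hp⟩ :=
    h.abrc n (min (1 / 2) (η / (2 * Δ))) (by positivity)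
  have h1 : t ≤ 1 / 2 * s := hts.trans (mul_le_mul_of_nonneg_right (min_le_left _ _) hs.le)
  have h2 : t ≤ η / (2 * Δ) * s := hts.trans (mul_le_mul_of_nonneg_right (min_le_right _ _) hs.le)
  have h3 : 0 < s - t := by linarith
  set c := Real.sqrt (Δ / (s - t)) with hc
  have hc2 : c ^ 2 = Δ / (s - t) := Real.sq_sqrt (by positivity)
  refine ⟨U.map (fun w => c • w), V.map (fun w => c • w), c ^ 2 * t, by positivity, ?_, ?_, ?_, ?_⟩
  · rw [hc2, div_mul_eq_mul_div, div_le_iff₀ h3]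
    rw [div_mul_eq_mul_div, le_div_iff₀ (by positivity)] at h2
    nlinarith
  · rw [deg_map_smul, hU, smul_smul]
    congr 1
    rw [hc2]; field_simp; ring
  · rw [deg_map_smul, hV, smul_smul]
  · intro i
    rw [ev_map_smul, ev_map_smul, ← map_inv, ← map_mul]
    exact lcs_map _ n (hp i)

end Vale.Agent.P058
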