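import Mathlib.Algebra.MonoidAlgebra.Basic
import Mathlib.Algebra.MonoidAlgebra.MapDomain
import Mathlib.RingTheory.Ideal.Operations
import Mathlib.RingTheory.Ideal.Quotient.Basic
import Vale.Agent.P058.Words

/-!
The commutative part: from a congruence modulo the cube of the augmentation ideal of the group
ring of the reals to an exact equality of multisets.
-/

namespace Vale.Agent.P058

/-- the integral group ring of the additive group of reals -/
abbrev GR : Type := AddMonoidAlgebra ℤ ℝ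

/-- the basis element of a real number -/
noncomputable def eb (a : ℝ) : GR := AddMonoidAlgebra.single a 1

lemma eb_add (a b : ℝ) : eb (a + b) = eb a * eb b := by
  simp [eb, AddMonoidAlgebra.single_mul_single]

lemma eb_zero : eb 0 = 1 := rfl

lemma eb_nat_mul (q : ℕ) (a : ℝ) : eb (q * a) = eb a ^ q := by
  induction q with
  | zero => simp [eb_zero]
  | succ q ih => push_cast; rw [add_mul, one_mul, eb_add, ih, pow_succ]

/-- the augmentation ideal -/
noncomputable def aug : Ideal GR := Ideal.span (Set.range fun a => eb a - 1)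

lemma eb_sub_one_mem (a : ℝ) : eb a - 1 ∈ aug := Ideal.subset_span ⟨a, rfl⟩

lemma GR_induction {p : GR → Prop} (ξ : GR) (h1 : ∀ a, p (eb a)) (h0 : p 0)
    (hadd : ∀ x y, p x → p y → p (x + y)) (hneg : ∀ x, p x → p (-x)) : p ξ := by
  induction ξ using AddMonoidAlgebra.induction_linear with
  | zero => exact h0
  | add x y hx hy => exact hadd x y hx hy
  | single a n =>
    have e : (AddMonoidAlgebra.single a n : GR) = n • eb a := by simp [eb]
    rw [e]
    induction n using Int.induction_on with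
    | zero => simpa using h0
    | succ n ih => rw [add_smul, one_smul]; exact hadd _ _ (ih (by simp [eb])) (h1 a)
    | pred n ih =>
      rw [sub_smul, one_smul, sub_eq_add_neg]; exact hadd _ _ (ih (by simp [eb])) (hneg _ (h1 a))

/-- scaling of the group ring -/
noncomputable def sc (q : ℕ) : GR →+* GR :=
  AddMonoidAlgebra.mapDomainRingHom ℤ (AddMonoidHom.mulLeft (q : ℝ))

lemma sc_eb (q : ℕ) (a : ℝ) : sc q (eb a) = eb (q * a) := by
  simp [sc, eb]

lemma sc_sub_self (q : ℕ) (ξ : GR) : sc q ξ - ξ ∈ aug := by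
  induction ξ using GR_induction with
  | h1 a =>
    rw [sc_eb]
    have := aug.sub_mem (eb_sub_one_mem (q * a)) (eb_sub_one_mem a)
    convert this using 1; ring
  | h0 => simp
  | hadd x y hx hy =>
    rw [map_add]
    convert aug.add_mem hx hy using 1; ring
  | hneg x hx =>
    rw [map_neg]
    convert aug.neg_mem hx using 1; ring

lemma pow_sub_mem (z : GR) (hz : z - 1 ∈ aug) (q : ℕ) :
    z ^ q - 1 ∈ aug ∧ z ^ q - 1 - q * (z - 1) ∈ aug ^ 2 := by
  induction q with
  | zero => simp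
  | succ q ih =>
    constructor
    · have := aug.add_mem (aug.mul_mem_left z ih.1) hz
      convert this using 1; ring
    · have h1 : (z ^ q - 1) * (z - 1) ∈ aug ^ 2 := by
        rw [pow_two]; exact Ideal.mul_mem_mul ih.1 hz
      convert (aug ^ 2).add_mem ih.2 h1 using 1
      push_cast; ring

lemma sc_aug (q : ℕ) {b : GR} (hb : b ∈ aug) : sc q b ∈ aug ∧ sc q b - q * b ∈ aug ^ 2 := by
  have h1 : ∀ b ∈ aug, sc q b ∈ aug := by
    intro b hb
    convert aug.add_mem (sc_sub_self q b) hb using 1; ring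
  refine ⟨h1 b hb, ?_⟩
  induction hb using Submodule.span_induction with
  | mem x hx =>
    obtain ⟨a, rfl⟩ := hx
    rw [map_sub, map_one, sc_eb, eb_nat_mul]
    exact (pow_sub_mem _ (eb_sub_one_mem a) q).2
  | zero => simp
  | add x y _ _ hx hy =>
    rw [map_add]
    convert (aug ^ 2).add_mem hx hy using 1; ring
  | smul r x hx ih =>
    rw [smul_eq_mul, map_mul]
    have h2 : (sc q r - r) * sc q x ∈ aug ^ 2 := by
      rw [pow_two]; exact Ideal.mul_mem_mul (sc_sub_self q r) (h1 x hx)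
    convert (aug ^ 2).add_mem h2 ((aug ^ 2).mul_mem_left r ih) using 1; ring

lemma sc_pow (q : ℕ) (c : ℕ) : ∀ ξ ∈ aug ^ c, sc q ξ - (q : GR) ^ c * ξ ∈ aug ^ (c + 1) := by
  induction c with
  | zero => intro ξ _; simpa using sc_sub_self q ξ
  | succ c ih =>
    intro ξ hξ
    rw [pow_succ] at hξ
    refine Submodule.mul_induction_on hξ ?_ ?_
    · intro a ha b hb
      have h1 : (sc q a - (q : GR) ^ c * a) * sc q b ∈ aug ^ (c + 1 + 1) := by
        rw [pow_succ _ (c + 1)]; exact Ideal.mul_mem_mul (ih a ha) (sc_aug q hb).1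
      have h2 : a * (sc q b - q * b) ∈ aug ^ (c + 1 + 1) := by
        rw [add_assoc, pow_add]; exact Ideal.mul_mem_mul ha (sc_aug q hb).2
      rw [map_mul]
      convert (aug ^ (c + 1 + 1)).add_mem h1
        ((aug ^ (c + 1 + 1)).mul_mem_left ((q : GR) ^ c) h2) using 1
      ring
    · intro x y hx hy
      rw [map_add]
      convert (aug ^ (c + 1 + 1)).add_mem hx hy using 1; ring

/-- the class of a list of reals in the group ring -/
noncomputable def cls (l : List ℝ) : GR := (l.map eb).sum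

lemma cls_coeff (l : List ℝ) (a : ℝ) : (cls l).coeff a = l.count a := by
  induction l with
  | nil => simp [cls]
  | cons b l ih =>
    have : cls (b :: l) = eb b + cls l := by simp [cls]
    rw [this, AddMonoidAlgebra.coeff_add, Finsupp.add_apply, ih, List.count_cons]
    by_cases h : b = a
    · simp [eb, h, add_comm]
    · simp [eb, h]

lemma perm_of_cls_eq {l l' : List ℝ} (h : cls l = cls l') : l.Perm l' := by
  rw [List.perm_iff_count]
  intro a
  have := cls_coeff l a
  rw [h, cls_coeff] at this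
  exact_mod_cast this.symm

lemma cls_geom (x : ℝ) (L : ℕ) :
    cls ((List.range L).map fun r : ℕ => (r : ℝ) * x) * (eb x - 1) = eb (L * x) - 1 := by
  induction L with
  | zero => simp [cls, eb_zero]
  | succ L ih =>
    have : cls ((List.range (L + 1)).map fun r : ℕ => (r : ℝ) * x) =
        cls ((List.range L).map fun r : ℕ => (r : ℝ) * x) + eb (L * x) := by
      simp [cls, List.range_succ]
    rw [this, add_mul, ih]
    push_cast
    rw [add_mul, one_mul, eb_add]; ring

variable {ι : Type*}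

/-- the marginals of a list of columns -/
noncomputable def mar (U : List (ι → ℝ)) : ι → GR := fun i => cls (U.map (· i))

@[simp] lemma mar_nil : mar ([] : List (ι → ℝ)) = 0 := by ext1 i; simp [mar, cls]

@[simp] lemma mar_cons (w : ι → ℝ) (U : List (ι → ℝ)) :
    mar (w :: U) = (fun i => eb (w i)) + mar U := by ext1 i; simp [mar, cls]

@[simp] lemma mar_append (U V : List (ι → ℝ)) : mar (U ++ V) = mar U + mar V := by
  ext1 i; simp [mar, cls]

lemma mar_rep (N : ℕ) (U : List (ι → ℝ)) : mar (rep N U) = (N : GR) • mar U := by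
  induction N with
  | zero => simp [rep]
  | succ N ih => rw [rep_succ, mar_append, ih]; push_cast; rw [add_smul, one_smul, add_comm]

lemma mar_map_smul (q : ℕ) (U : List (ι → ℝ)) (i : ι) :
    mar (U.map (fun w => (q : ℝ) • w)) i = sc q (mar U i) := by
  induction U with
  | nil => simp
  | cons w U ih => simp [ih, sc_eb]

/-- translate all columns -/
def shift (b : ℝ) (U : List (ι → ℝ)) : List (ι → ℝ) := U.map (fun w i => b + w i)

lemma deg_shift (b : ℝ) (U : List (ι → ℝ)) : deg (shift b U) = deg U := by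
  induction U with
  | nil => simp [shift]
  | cons w U ih =>
    have : shift b (w :: U) = (fun i => b + w i) :: shift b U := rfl
    rw [this, deg_cons, deg_cons, ih]
    congr 1
    ext i j; simp [degc]

lemma mar_shift (b : ℝ) (U : List (ι → ℝ)) : mar (shift b U) = eb b • mar U := by
  induction U with
  | nil => simp [shift]
  | cons w U ih =>
    have : shift b (w :: U) = (fun i => b + w i) :: shift b U := rfl
    rw [this, mar_cons, mar_cons, ih, smul_add]
    congr 1
    ext1 i; simp [eb_add]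

/-- convolution with a list of constants -/
def conv (κ : List ℝ) (U : List (ι → ℝ)) : List (ι → ℝ) := κ.flatMap (fun b => shift b U)

lemma deg_conv (κ : List ℝ) (U : List (ι → ℝ)) : deg (conv κ U) = (κ.length : ℝ) • deg U := by
  induction κ with
  | nil => simp [conv]
  | cons b κ ih =>
    have : conv (b :: κ) U = shift b U ++ conv κ U := by simp [conv]
    rw [this, deg_append, ih, deg_shift, List.length_cons]
    push_cast; rw [add_smul, one_smul, add_comm]

lemma mar_conv (κ : List ℝ) (U : List (ι → ℝ)) : mar (conv κ U) = cls κ • mar U := by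
  induction κ with
  | nil => simp [conv, cls]
  | cons b κ ih =>
    have : conv (b :: κ) U = shift b U ++ conv κ U := by simp [conv]
    have h2 : cls (b :: κ) = eb b + cls κ := by simp [cls]
    rw [this, mar_append, ih, mar_shift, h2, add_smul]

/-- a pair of lists with discrepancy `ξ` and ratio at most `ρ` -/
def Good (δ : ι → ι → ℝ) (ξ : ι → GR) (ρ : ℝ) : Prop :=
  ∃ (U V : List (ι → ℝ)) (s t : ℝ), 0 < s ∧ 0 ≤ t ∧ t ≤ ρ * s ∧
    deg U = s • δ ∧ deg V = t • δ ∧ mar U - mar V = ξ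

/-- discrepancy in a power of the augmentation ideal -/
def GoodI (δ : ι → ι → ℝ) (c : ℕ) : Prop :=
  ∀ ρ : ℝ, 0 < ρ → ∃ ξ : ι → GR, (∀ i, ξ i ∈ aug ^ c) ∧ Good δ ξ ρ

lemma GoodI.succ {δ : ι → ι → ℝ} {n : ℕ} (h : GoodI δ (n + 3)) : GoodI δ (n + 4) := by
  intro ρ hρ
  obtain ⟨ξ, hξ, U, V, s, t, hs, ht, hts, hU, hV, hp⟩ := h (ρ / 2) (by positivity)
  obtain ⟨q, hq⟩ := exists_nat_gt (max (2 / ρ) 1)
  have hq1 : (1 : ℝ) < q := lt_of_le_of_lt (le_max_right _ _) hq
  have hq2 : 2 / ρ < q := lt_of_le_of_lt (le_max_left _ _) hq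
  have hq0 : (0 : ℝ) < q := by linarith
  refine ⟨fun i => -(sc q (ξ i) - (q : GR) ^ (n + 3) * ξ i),
    fun i => (aug ^ (n + 4)).neg_mem (sc_pow q _ _ (hξ i)),
    rep (q ^ (n + 3)) U ++ V.map (fun w => (q : ℝ) • w),
    rep (q ^ (n + 3)) V ++ U.map (fun w => (q : ℝ) • w),
    (q : ℝ) ^ (n + 3) * s + q ^ 2 * t, (q : ℝ) ^ (n + 3) * t + q ^ 2 * s, by positivity,
    by positivity, ?_, ?_, ?_, ?_⟩
  · have h1 : (q : ℝ) ^ 2 * q ≤ (q : ℝ) ^ (n + 3) := by
      rw [pow_add]
      have : (1 : ℝ) ≤ (q : ℝ) ^ n := one_le_pow₀ hq1.le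
      have h3 : (0 : ℝ) < (q : ℝ) ^ 3 := by positivity
      nlinarith
    have h2 : 2 < ρ * q := by
      rw [div_lt_iff₀ hρ] at hq2; linarith
    have hq3 : (0 : ℝ) < (q : ℝ) ^ 2 := by positivity
    have h3 : (q : ℝ) ^ 2 * s ≤ ρ / 2 * ((q : ℝ) ^ (n + 3) * s) := by
      have : (q : ℝ) ^ 2 ≤ ρ / 2 * (q : ℝ) ^ (n + 3) := by nlinarith
      nlinarith
    have h4 : (q : ℝ) ^ (n + 3) * t ≤ ρ / 2 * ((q : ℝ) ^ (n + 3) * s) := by
      have : (0 : ℝ) < (q : ℝ) ^ (n + 3) := by positivity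
      nlinarith
    have h5 : 0 ≤ ρ * (q ^ 2 * t) := by positivity
    nlinarith
  · rw [deg_append, deg_rep, deg_map_smul, hU, hV, smul_smul, smul_smul, ← add_smul]
    push_cast; rfl
  · rw [deg_append, deg_rep, deg_map_smul, hU, hV, smul_smul, smul_smul, ← add_smul]
    push_cast; rfl
  · ext1 i
    rw [mar_append, mar_append, mar_rep, mar_rep, ← hp]
    simp only [Pi.sub_apply, Pi.add_apply, Pi.smul_apply, mar_map_smul, smul_eq_mul, map_sub]
    push_cast; ring

lemma GoodI.add_three {δ : ι → ι → ℝ} (h : GoodI δ 3) (n : ℕ) : GoodI δ (n + 3) := by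
  induction n with
  | zero => exact h
  | succ n ih => exact ih.succ

/-- columns that can be completed to a multiple of `δ` -/
def Pad (δ : ι → ι → ℝ) : Submodule ℝ (ι → ℝ) where
  carrier := {w | ∃ (P : List (ι → ℝ)) (C : ℝ), 0 ≤ C ∧ degc w + deg P = C • δ}
  zero_mem' := ⟨[], 0, le_rfl, by ext i j; simp [degc]⟩
  add_mem' := by
    rintro u v ⟨P, C, hC, h⟩ ⟨P', C', hC', h'⟩
    refine ⟨(u - v) :: (P ++ P ++ P' ++ P'), 2 * C + 2 * C', by positivity, ?_⟩
    ext i j
    have e1 := congrFun (congrFun h i) j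
    have e2 := congrFun (congrFun h' i) j
    simp only [deg_cons, deg_append, Pi.add_apply, Pi.smul_apply, smul_eq_mul, degc,
      Pi.sub_apply] at e1 e2 ⊢
    linear_combination 2 * e1 + 2 * e2
  smul_mem' := by
    rintro c u ⟨P, C, hC, h⟩
    refine ⟨P.map (fun w => c • w), c ^ 2 * C, by positivity, ?_⟩
    rw [deg_map_smul, mul_smul, ← h, smul_add]
    congr 1
    ext i j; simp [degc]; ring

lemma const_mem_Pad (δ : ι → ι → ℝ) (b : ℝ) : (fun _ => b) ∈ Pad δ :=
  ⟨[], 0, le_rfl, by ext i j; simp [degc]⟩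

lemma mem_Pad_of_mem {A : List (ι → ℝ)} {w : ι → ℝ} (hw : w ∈ A) : w ∈ Pad (deg A) := by
  classical
  refine ⟨A.erase w, 1, zero_le_one, ?_⟩
  rw [one_smul, deg_perm (List.perm_cons_erase hw), deg_cons]

lemma pad_list {δ : ι → ι → ℝ} (E : List (ι → ℝ)) (hE : ∀ w ∈ E, w ∈ Pad δ) :
    ∃ (P : List (ι → ℝ)) (C : ℝ), 0 ≤ C ∧ deg E + deg P = C • δ := by
  induction E with
  | nil => exact ⟨[], 0, le_rfl, by simp⟩
  | cons w E ih =>
    obtain ⟨P, C, hC, h⟩ := ih (fun v hv => hE v (List.mem_cons_of_mem _ hv))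
    obtain ⟨P', C', hC', h'⟩ := hE w List.mem_cons_self
    refine ⟨P ++ P', C + C', by positivity, ?_⟩
    rw [deg_cons, deg_append, add_smul, ← h, ← h']; abel

/-- the monoid of marginals of single admissible columns -/
noncomputable def colMonoid (δ : ι → ι → ℝ) : Submonoid (ι → GR) where
  carrier := {ζ | ∃ w ∈ Pad δ, ζ = fun i => eb (w i)}
  one_mem' := ⟨0, zero_mem _, rfl⟩
  mul_mem' := by
    rintro _ _ ⟨u, hu, rfl⟩ ⟨v, hv, rfl⟩
    exact ⟨u + v, add_mem hu hv, by ext1 i; simp [eb_add]⟩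

/-- the ring of marginals of signed admissible families -/
noncomputable def marRing (δ : ι → ι → ℝ) : Subring (ι → GR) :=
  Subring.closure (colMonoid δ : Set (ι → GR))

lemma col_mem_marRing {δ : ι → ι → ℝ} {w : ι → ℝ} (hw : w ∈ Pad δ) :
    (fun i => eb (w i)) ∈ marRing δ := Subring.subset_closure ⟨w, hw, rfl⟩

lemma marRing_rep {δ : ι → ι → ℝ} {ζ : ι → GR} (h : ζ ∈ marRing δ) :
    ∃ E E' : List (ι → ℝ), (∀ w ∈ E ++ E', w ∈ Pad δ) ∧ ζ = mar E - mar E' := by
  rw [marRing, Subring.mem_closure_iff, Submonoid.closure_eq] at h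
  induction h using AddSubgroup.closure_induction with
  | mem x hx =>
    obtain ⟨w, hw, rfl⟩ := hx
    exact ⟨[w], [], by simpa using hw, by simp⟩
  | zero => exact ⟨[], [], by simp, by simp⟩
  | add x y _ _ hx hy =>
    obtain ⟨E, E', h1, rfl⟩ := hx
    obtain ⟨F, F', h2, rfl⟩ := hy
    refine ⟨E ++ F, E' ++ F', ?_, by simp only [mar_append]; abel⟩
    intro w hw
    simp only [List.mem_append] at hw h1 h2
    rcases hw with (h | h) | (h | h)
    exacts [h1 w (Or.inl h), h2 w (Or.inl h), h1 w (Or.inr h), h2 w (Or.inr h)]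
  | neg x _ hx =>
    obtain ⟨E, E', h1, rfl⟩ := hx
    refine ⟨E', E, ?_, by abel⟩
    intro w hw
    simp only [List.mem_append] at hw h1
    exact h1 w hw.symm

lemma const_mem_marRing (δ : ι → ι → ℝ) (η : GR) : (fun _ : ι => η) ∈ marRing δ := by
  induction η using GR_induction with
  | h1 a => exact col_mem_marRing (const_mem_Pad δ a)
  | h0 => exact zero_mem _
  | hadd x y hx hy => exact add_mem hx hy
  | hneg x hx => exact neg_mem hx

lemma smul_mem_marRing {δ : ι → ι → ℝ} (η : GR) {ζ : ι → GR} (h : ζ ∈ marRing δ) :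
    η • ζ ∈ marRing δ := mul_mem (const_mem_marRing δ η) h

lemma marRing_pair {A : List (ι → ℝ)} {i j : ι} (hij : ∃ w ∈ A, w i ≠ w j) {b : GR}
    (hb : b ∈ aug) : ∃ ζ ∈ marRing (deg A), ζ i = b ∧ ζ j = 0 := by
  induction hb using Submodule.span_induction with
  | mem x hx =>
    obtain ⟨a, rfl⟩ := hx
    obtain ⟨w, hw, hne⟩ := hij
    have hβ : w i - w j ≠ 0 := sub_ne_zero.mpr hne
    have h1 : (a / (w i - w j)) • (w - fun _ => w j) ∈ Pad (deg A) :=
      Submodule.smul_mem _ _ (sub_mem (mem_Pad_of_mem hw) (const_mem_Pad _ _))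
    refine ⟨_, sub_mem (col_mem_marRing h1) (one_mem _), ?_, ?_⟩
    · simp [hβ]
    · simp [eb_zero]
  | zero => exact ⟨0, zero_mem _, rfl, rfl⟩
  | add x y _ _ hx hy =>
    obtain ⟨ζ, h1, h2, h3⟩ := hx
    obtain ⟨ζ', h1', h2', h3'⟩ := hy
    exact ⟨ζ + ζ', add_mem h1 h1', by simp [h2, h2'], by simp [h3, h3']⟩
  | smul r x _ hx =>
    obtain ⟨ζ, h1, h2, h3⟩ := hx
    exact ⟨r • ζ, smul_mem_marRing r h1, by simp [h2], by simp [h3]⟩

lemma marRing_single [DecidableEq ι] {A : List (ι → ℝ)} {i : ι} (K : Finset ι)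
    (hK : ∀ j ∈ K, ∃ w ∈ A, w i ≠ w j) :
    ∀ a ∈ aug ^ K.card, ∃ ζ ∈ marRing (deg A), ζ i = a ∧ ∀ j ∈ K, ζ j = 0 := by
  induction K using Finset.induction_on with
  | empty => intro a _; exact ⟨_, const_mem_marRing _ a, rfl, by simp⟩
  | insert j K hjK ih =>
    intro a ha
    rw [Finset.card_insert_of_notMem hjK, pow_succ] at ha
    refine Submodule.mul_induction_on ha ?_ ?_
    · intro a ha b hb
      obtain ⟨ζ, h1, h2, h3⟩ := ih (fun l hl => hK l (Finset.mem_insert_of_mem hl)) a ha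
      obtain ⟨ζ', h1', h2', h3'⟩ := marRing_pair (hK j (Finset.mem_insert_self _ _)) hb
      refine ⟨ζ * ζ', mul_mem h1 h1', by simp [h2, h2'], fun l hl => ?_⟩
      rcases Finset.mem_insert.mp hl with rfl | hl
      · simp [h3']
      · simp [h3 l hl]
    · rintro x y ⟨ζ, h1, h2, h3⟩ ⟨ζ', h1', h2', h3'⟩
      exact ⟨ζ + ζ', add_mem h1 h1', by simp [h2, h2'], fun l hl => by simp [h3 l hl, h3' l hl]⟩

/-- negligible discrepancies -/
def Negl (δ : ι → ι → ℝ) : Submodule GR (ι → GR) where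
  carrier := {ζ | ∀ (η : GR) (ξ : ι → GR) (ρ ρ' : ℝ), ρ < ρ' → Good δ (ξ + η • ζ) ρ →
    ∃ κ : GR, Good δ (κ • ξ) ρ'}
  zero_mem' := by
    rintro η ξ ρ ρ' hρ ⟨U, V, s, t, hs, ht, hts, hU, hV, hp⟩
    exact ⟨1, U, V, s, t, hs, ht, by nlinarith, hU, hV, by simpa using hp⟩
  add_mem' := by
    intro ζ ζ' h h' η ξ ρ ρ' hρ hg
    rw [smul_add, ← add_assoc] at hg
    obtain ⟨κ, hκ⟩ := h' η _ ρ ((ρ + ρ') / 2) (by linarith) hg
    rw [smul_add, smul_smul] at hκ
    obtain ⟨κ', hκ'⟩ := h _ _ _ ρ' (by linarith) hκ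
    exact ⟨κ' * κ, by rwa [mul_smul]⟩
  smul_mem' := by
    intro c ζ h η ξ ρ ρ' hρ hg
    rw [smul_smul] at hg
    exact h _ _ _ _ hρ hg

lemma gen_mem_Negl {δ : ι → ι → ℝ} (x : ℝ) {ζ : ι → GR} (hζ : ζ ∈ marRing δ) :
    (eb x - 1) • ζ ∈ Negl δ := by
  rintro η ξ ρ ρ' hρ ⟨U, V, s, t, hs, ht, hts, hU, hV, hp⟩
  obtain ⟨E, E', hE, e⟩ := marRing_rep (smul_mem_marRing η hζ)
  obtain ⟨P, C, hC, hP⟩ := pad_list _ hE
  rw [deg_append] at hP
  obtain ⟨L, hL⟩ := exists_nat_gt (C / ((ρ' - ρ) * s))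
  have hpos : 0 < (ρ' - ρ) * s := mul_pos (by linarith) hs
  have hL0 : (0 : ℝ) < L := lt_of_le_of_lt (by positivity) hL
  rw [div_lt_iff₀ hpos] at hL
  have hρ0 : 0 ≤ ρ := by
    by_contra h
    nlinarith
  set κ := (List.range L).map fun r : ℕ => (r : ℝ) * x with hκ
  have hlen : (κ.length : ℝ) = L := by simp [hκ]
  refine ⟨cls κ, conv κ U ++ (shift (L * x) E' ++ E) ++ P, conv κ V ++ (shift (L * x) E ++ E') ++ P,
    L * s + C, L * t + C, by positivity, by positivity, ?_, ?_, ?_, ?_⟩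
  · have h1 : (L : ℝ) * t ≤ L * (ρ * s) := mul_le_mul_of_nonneg_left hts hL0.le
    have h2 : 0 ≤ ρ' * C := mul_nonneg (by linarith) hC
    nlinarith
  · simp only [deg_append, deg_conv, deg_shift, hlen, hU, smul_smul, add_smul, ← hP]; abel
  · simp only [deg_append, deg_conv, deg_shift, hlen, hV, smul_smul, add_smul, ← hP]; abel
  · simp only [mar_append, mar_conv, mar_shift]
    have h1 : cls κ • mar U - cls κ • mar V = cls κ • ξ + (eb (L * x) - 1) • (mar E - mar E') := by
      rw [← smul_sub, hp, smul_add, smul_comm η, e, smul_smul, cls_geom]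
    have h2 : cls κ • mar U = cls κ • mar V + (cls κ • ξ + (eb (L * x) - 1) • (mar E - mar E')) := by
      rw [← h1]; abel
    rw [h2, sub_smul, smul_sub, one_smul]; abel

lemma smul_mem_Negl {δ : ι → ι → ℝ} {b : GR} (hb : b ∈ aug) {ζ : ι → GR} (hζ : ζ ∈ marRing δ) :
    b • ζ ∈ Negl δ := by
  induction hb using Submodule.span_induction with
  | mem x hx =>
    obtain ⟨a, rfl⟩ := hx
    exact gen_mem_Negl a hζ
  | zero => simp
  | add x y _ _ hx hy => rw [add_smul]; exact add_mem hx hy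
  | smul r x _ hx => rw [smul_assoc]; exact Submodule.smul_mem _ _ hx

theorem abr_of_goodI [Fintype ι] [DecidableEq ι] {A : List (ι → ℝ)}
    (hinj : ∀ i j, i ≠ j → ∃ w ∈ A, w i ≠ w j) (h : GoodI (deg A) 3) : ABR (deg A) := by
  intro ρ hρ
  obtain ⟨ξ, hξ, hg⟩ := h.add_three (Fintype.card ι) (ρ / 2) (by positivity)
  have hN : ξ ∈ Negl (deg A) := by
    rw [← Finset.univ_sum_single ξ]
    refine Submodule.sum_mem _ fun i _ => ?_
    have h1 : ξ i ∈ aug * aug ^ (Finset.univ.erase i).card := by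
      rw [← pow_succ']
      refine Ideal.pow_le_pow_right ?_ (hξ i)
      have := Finset.card_le_univ (Finset.univ.erase i)
      omega
    refine Submodule.mul_induction_on h1 ?_ ?_
    · intro b hb a ha
      obtain ⟨ζ, h1, h2, h3⟩ := marRing_single (A := A) (i := i) (Finset.univ.erase i)
        (fun j hj => hinj i j (Finset.mem_erase.mp hj).1.symm) a ha
      have e : Pi.single i (b * a) = b • ζ := by
        ext1 j
        by_cases hj : j = i
        · subst hj; simp [h2]
        · simp [hj, h3 j (by simp [hj])]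
      rw [e]
      exact smul_mem_Negl hb h1
    · intro x y hx hy
      rw [Pi.single_add]
      exact add_mem hx hy
  obtain ⟨κ, U, V, s, t, hs, ht, hts, hU, hV, hp⟩ :=
    hN 1 0 (ρ / 2) ρ (by linarith) (by simpa using hg)
  refine ⟨U, V, s, t, hs, ht, hts, hU, hV, fun i => perm_of_cls_eq ?_⟩
  have := congrFun hp i
  simpa [mar, sub_eq_zero] using this

end Vale.Agent.P058
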