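import Vale.Agent.P058.Words

/-!
The algebraic core: a graded family of subsets of `ι → H` with two compactness properties contains
the identity in every positive degree, provided the big ratio condition holds.
-/

namespace Vale.Agent.P058

open scoped commutatorElement

variable {ι : Type*} {H : Type*} [Group H]

/-- saturation outside the coordinates in `J` -/
def sat (L : (ι → ι → ℝ) → Set (ι → H)) (J : Finset ι) (δ : ι → ι → ℝ) : Set (ι → H) :=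
  {z | ∃ y ∈ L δ, ∀ j ∈ J, z j = y j}

/-- The data and properties that the ultrafilter construction provides. -/
structure Setup (ι : Type*) (H : Type*) [Group H] (δA : ι → ι → ℝ) where
  L : (ι → ι → ℝ) → Set (ι → H)
  x : ℝ → H
  mul_mem : ∀ {δ δ' y y'}, y ∈ L δ → y' ∈ L δ' → y * y' ∈ L (δ + δ')
  const_mem : ∀ h : H, (fun _ => h) ∈ L 0
  letter_mem : ∀ w : ι → ℝ, (fun i => x (w i)) ∈ L (degc w)
  inv_mem : ∀ (J : Finset ι) (y : ι → H), (∀ t : ℝ, 0 < t → y ∈ sat L J (t • δA)) →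
    ∀ t : ℝ, 0 < t → y⁻¹ ∈ sat L J (t • δA)
  fip : ∀ (J K : Finset ι) (g : ι → H),
    (∀ T : Finset ℝ, (∀ t ∈ T, 0 < t) →
      ∃ y, (∀ t ∈ T, y ∈ sat L J (t • δA)) ∧ ∀ k ∈ K, y k = g k) →
    ∃ y, (∀ t : ℝ, 0 < t → y ∈ sat L J (t • δA)) ∧ ∀ k ∈ K, y k = g k

namespace Setup

variable {δA : ι → ι → ℝ} (S : Setup ι H δA)

/-- elements of scalar degree `t`, saturated outside `J` -/
def LJ (J : Finset ι) (t : ℝ) : Set (ι → H) := sat S.L J (t • δA)

lemma mem_LJ_of_mem {J : Finset ι} {t : ℝ} {y : ι → H} (hy : y ∈ S.L (t • δA)) : y ∈ S.LJ J t :=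
  ⟨y, hy, fun _ _ => rfl⟩

lemma LJ_congr {J : Finset ι} {t : ℝ} {y z : ι → H} (hy : y ∈ S.LJ J t) (h : ∀ j ∈ J, z j = y j) :
    z ∈ S.LJ J t := by
  obtain ⟨y', hy', e⟩ := hy
  exact ⟨y', hy', fun j hj => (h j hj).trans (e j hj)⟩

lemma LJ_cast {J : Finset ι} {s t : ℝ} {y z : ι → H} (hy : y ∈ S.LJ J s) (e : z = y)
    (e' : t = s) : z ∈ S.LJ J t := by
  subst e e'; exact hy

lemma LJ_mul {J : Finset ι} {s t : ℝ} {y z : ι → H} (hy : y ∈ S.LJ J s) (hz : z ∈ S.LJ J t) :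
    y * z ∈ S.LJ J (s + t) := by
  obtain ⟨y', hy', e⟩ := hy
  obtain ⟨z', hz', e'⟩ := hz
  refine ⟨y' * z', ?_, fun j hj => by simp [e j hj, e' j hj]⟩
  rw [add_smul]
  exact S.mul_mem hy' hz'

lemma LJ_const (J : Finset ι) (h : H) : (fun _ => h) ∈ S.LJ J 0 := by
  apply S.mem_LJ_of_mem
  rw [zero_smul]
  exact S.const_mem h

lemma LJ_one (J : Finset ι) : (1 : ι → H) ∈ S.LJ J 0 := S.LJ_const J 1

/-- the homomorphism from the free group to `H` -/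
def ψ : FreeGroup ℝ →* H := FreeGroup.lift (fun a => S.x a * (S.x 0)⁻¹)

lemma word_mem (U : List (ι → ℝ)) : (fun i => S.ψ (ev U i)) ∈ S.L (deg U) := by
  induction U with
  | nil => simpa using S.const_mem 1
  | cons w U ih =>
    have h := S.mul_mem (S.mul_mem (S.letter_mem w) (S.const_mem (S.x 0)⁻¹)) ih
    rw [add_zero] at h
    rw [deg_cons]
    convert h using 1
    ext i
    simp [ψ]

lemma L_nonempty {A : List (ι → ℝ)} (hA : deg A = δA) {t : ℝ} (ht : 0 ≤ t) :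
    ∃ y, y ∈ S.L (t • δA) := by
  have h := S.word_mem (A.map (fun w => Real.sqrt t • w))
  rw [deg_map_smul, hA, Real.sq_sqrt ht] at h
  exact ⟨_, h⟩

/-- quotients along a pair of coordinates -/
def Q (i j : ι) (δ : ι → ι → ℝ) : Set H := {g | ∃ y ∈ S.L δ, y i = g ∧ y j = 1}

lemma Q_cast {i j : ι} {δ δ' : ι → ι → ℝ} {g g' : H} (hg : g ∈ S.Q i j δ) (e : g' = g)
    (e' : δ' = δ) : g' ∈ S.Q i j δ' := by
  subst e e'; exact hg

lemma Q_mul {i j : ι} {δ δ' : ι → ι → ℝ} {g g' : H} (hg : g ∈ S.Q i j δ) (hg' : g' ∈ S.Q i j δ') :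
    g * g' ∈ S.Q i j (δ + δ') := by
  obtain ⟨y, hy, rfl, e⟩ := hg
  obtain ⟨y', hy', rfl, e'⟩ := hg'
  exact ⟨y * y', S.mul_mem hy hy', rfl, by simp [e, e']⟩

lemma Q_one (i j : ι) : (1 : H) ∈ S.Q i j 0 := ⟨fun _ => 1, S.const_mem 1, rfl, rfl⟩

lemma Q_col (i j : ι) (w : ι → ℝ) (b ε : ℝ) :
    S.x (b + ε * (w i - w j)) * (S.x b)⁻¹ ∈ S.Q i j (ε ^ 2 • degc w) := by
  have h := S.mul_mem (S.letter_mem (fun l => b + ε * (w l - w j))) (S.const_mem (S.x b)⁻¹)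
  have e : degc (fun l => b + ε * (w l - w j)) + 0 = ε ^ 2 • degc w := by
    ext k l
    simp [degc]; ring
  rw [e] at h
  exact ⟨_, h, rfl, by simp⟩

lemma Q_one_col (i j : ι) (w : ι → ℝ) (ε : ℝ) : (1 : H) ∈ S.Q i j ((2 * ε ^ 2) • degc w) := by
  have h := S.Q_mul (S.Q_col i j w 0 ε) (S.Q_col i j w (0 + ε * (w i - w j)) (-ε))
  refine S.Q_cast h ?_ ?_
  · simp
  · rw [← add_smul]; congr 1; ring

lemma Q_one_list (i j : ι) (U : List (ι → ℝ)) (ε : ℝ) :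
    (1 : H) ∈ S.Q i j ((2 * ε ^ 2) • deg U) := by
  induction U with
  | nil => simpa using S.Q_one i j
  | cons w U ih =>
    have h := S.Q_mul (S.Q_one_col i j w ε) ih
    rw [one_mul, ← smul_add] at h
    rwa [deg_cons]

lemma Q_step {A : List (ι → ℝ)} (hA : deg A = δA) (i j : ι) {w : ι → ℝ} (hw : w ∈ A) (b ε : ℝ) :
    S.x (b + 2 * ε * (w i - w j)) * (S.x b)⁻¹ ∈ S.Q i j ((2 * ε ^ 2) • δA) := by
  classical
  have h1 := S.Q_mul (S.Q_col i j w (b + ε * (w i - w j)) ε) (S.Q_col i j w b ε)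
  have h2 := S.Q_mul h1 (S.Q_one_list i j (A.erase w) ε)
  have h3 : δA = degc w + deg (A.erase w) := by
    rw [← hA, deg_perm (List.perm_cons_erase hw), deg_cons]
  refine S.Q_cast h2 ?_ ?_
  · rw [mul_one, mul_assoc (S.x _), inv_mul_cancel_left]
    congr 2; ring
  · rw [← add_smul, ← two_mul, ← smul_add, ← h3]

lemma Q_tele {A : List (ι → ℝ)} (hA : deg A = δA) (i j : ι) {w : ι → ℝ} (hw : w ∈ A) (b ε : ℝ)
    (m : ℕ) :
    S.x (b + m * (2 * ε * (w i - w j))) * (S.x b)⁻¹ ∈ S.Q i j ((m * (2 * ε ^ 2)) • δA) := by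
  induction m with
  | zero => simpa using S.Q_one i j
  | succ m ih =>
    have h := S.Q_mul (S.Q_step hA i j hw (b + m * (2 * ε * (w i - w j))) ε) ih
    refine S.Q_cast h ?_ ?_
    · rw [mul_assoc (S.x _), inv_mul_cancel_left]
      congr 2; push_cast; ring
    · rw [← add_smul]; congr 1; push_cast; ring

lemma Q_small {A : List (ι → ℝ)} (hA : deg A = δA) (i j : ι) {w : ι → ℝ} (hw : w ∈ A)
    (hij : w i ≠ w j) (a : ℝ) {η : ℝ} (hη : 0 < η) :
    ∃ t, 0 ≤ t ∧ t < η ∧ S.x a * (S.x 0)⁻¹ ∈ S.Q i j (t • δA) := by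
  have hβ : w i - w j ≠ 0 := sub_ne_zero.mpr hij
  set β := w i - w j with hβd
  obtain ⟨m, hm⟩ := exists_nat_gt (a ^ 2 / (2 * β ^ 2 * η))
  have hβ2 : 0 < β ^ 2 := by positivity
  have hm0 : (0 : ℝ) < m := lt_of_le_of_lt (by positivity) hm
  have h := S.Q_tele hA i j hw 0 (a / (2 * m * β)) m
  refine ⟨m * (2 * (a / (2 * m * β)) ^ 2), by positivity, ?_, S.Q_cast h ?_ rfl⟩
  swap
  · congr 2
    rw [← hβd]; field_simp; ring
  · rw [div_lt_iff₀ (by positivity)] at hm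
    have : (m : ℝ) * (2 * (a / (2 * m * β)) ^ 2) = a ^ 2 / (2 * m * β ^ 2) := by field_simp
    rw [this, div_lt_iff₀ (by positivity)]
    nlinarith

/-- The Ramsey statement for the coordinates in `J`. -/
def R (J : Finset ι) : Prop := ∀ t : ℝ, 0 < t → (1 : ι → H) ∈ S.LJ J t

lemma LJ_mono {J : Finset ι} (hR : S.R J) {s t : ℝ} (hst : s < t) {y : ι → H}
    (hy : y ∈ S.LJ J s) : y ∈ S.LJ J t := by
  have h := S.LJ_mul hy (hR (t - s) (by linarith))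
  simpa using h

/-- the group of elements of all positive degrees -/
def Z (J : Finset ι) (hR : S.R J) : Subgroup (ι → H) where
  carrier := {y | ∀ t : ℝ, 0 < t → y ∈ S.LJ J t}
  one_mem' := hR
  mul_mem' := by
    intro y z hy hz t ht
    have h := S.LJ_mul (hy (t / 2) (by positivity)) (hz (t / 2) (by positivity))
    simpa using h
  inv_mem' := fun {y} hy => S.inv_mem J y hy

lemma Z_pair [DecidableEq ι] {A : List (ι → ℝ)} (hA : deg A = δA) {J : Finset ι} (hR : S.R J)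
    {i j : ι} (hne : i ≠ j) (hij : ∃ w ∈ A, w i ≠ w j) (f : FreeGroup ℝ) :
    ∃ y ∈ S.Z J hR, y i = S.ψ f ∧ y j = 1 := by
  induction f using FreeGroup.induction_on with
  | C1 => exact ⟨1, one_mem _, by simp, by simp⟩
  | of a =>
    obtain ⟨w, hw, hij⟩ := hij
    have h := S.fip J {i, j} (fun k => if k = i then S.x a * (S.x 0)⁻¹ else 1) ?_
    · obtain ⟨y, hy, e⟩ := h
      refine ⟨y, hy, ?_, ?_⟩
      · simpa [ψ] using e i (by simp)
      · simpa [hne.symm] using e j (by simp)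
    · intro T hT
      obtain ⟨η, hη, hηT⟩ : ∃ η : ℝ, 0 < η ∧ ∀ t ∈ T, η ≤ t := by
        rcases T.eq_empty_or_nonempty with rfl | hne
        · exact ⟨1, one_pos, by simp⟩
        · exact ⟨T.min' hne, hT _ (T.min'_mem hne), fun t ht => T.min'_le t ht⟩
      obtain ⟨t0, -, ht0, y, hy, e1, e2⟩ := S.Q_small hA i j hw hij a hη
      refine ⟨y, fun t ht => S.LJ_mono hR (lt_of_lt_of_le ht0 (hηT t ht)) (S.mem_LJ_of_mem hy), ?_⟩
      intro k hk
      rcases Finset.mem_insert.mp hk with rfl | hk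
      · simp [e1]
      · rw [Finset.mem_singleton.mp hk]; simp [hne.symm, e2]
  | inv_of a ih =>
    obtain ⟨y, hy, e1, e2⟩ := ih
    exact ⟨y⁻¹, Subgroup.inv_mem _ hy, by simp [e1], by simp [e2]⟩
  | mul a b iha ihb =>
    obtain ⟨y, hy, e1, e2⟩ := iha
    obtain ⟨z, hz, e3, e4⟩ := ihb
    exact ⟨y * z, Subgroup.mul_mem _ hy hz, by simp [e1, e3], by simp [e2, e4]⟩

/-- elements all of whose conjugates have degree `δ` -/
def D (J : Finset ι) (δ : ℝ) : Set (ι → H) := {d | ∀ g : ι → H, g * d * g⁻¹ ∈ S.LJ J δ}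

lemma D_mul {J : Finset ι} {s t : ℝ} {d d' : ι → H} (hd : d ∈ S.D J s) (hd' : d' ∈ S.D J t) :
    d * d' ∈ S.D J (s + t) := by
  intro g
  have h := S.LJ_mul (hd g) (hd' g)
  simpa [mul_assoc] using h

lemma D_conj {J : Finset ι} {s : ℝ} {d : ι → H} (hd : d ∈ S.D J s) (g : ι → H) :
    g * d * g⁻¹ ∈ S.D J s := by
  intro g'
  have h := hd (g' * g)
  simpa [mul_assoc] using h

lemma D_one (J : Finset ι) : (1 : ι → H) ∈ S.D J 0 := by
  intro g
  simpa using S.LJ_one J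

lemma D_single [DecidableEq ι] {J : Finset ι} {s : ℝ} {d : ι → H} (hd : d ∈ S.LJ J s) (k : ι)
    (hk : ∀ j ∈ J.erase k, d j = 1) : d ∈ S.D J s := by
  intro g
  have h := S.LJ_mul (S.LJ_mul (S.LJ_const J (g k)) hd) (S.LJ_const J (g k)⁻¹)
  rw [zero_add, add_zero] at h
  refine S.LJ_congr h fun j hj => ?_
  by_cases hjk : j = k
  · subst hjk; simp
  · simp [hk j (Finset.mem_erase.mpr ⟨hjk, hj⟩)]

/-- `g` has formal degree `r` up to an error of degree at most `ε` -/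
def B (J : Finset ι) (ε : ℝ) (g : ι → H) (r : ℝ) : Prop :=
  ∃ δ, 0 ≤ δ ∧ δ ≤ ε ∧ ∃ d ∈ S.D J δ, g * d ∈ S.LJ J (δ + r)

lemma B_mul {J : Finset ι} {ε ε' : ℝ} {g g' : ι → H} {r r' : ℝ} (h : S.B J ε g r)
    (h' : S.B J ε' g' r') : S.B J (ε + ε') (g * g') (r + r') := by
  obtain ⟨δ, h0, h1, d, hd, h2⟩ := h
  obtain ⟨δ', h0', h1', d', hd', h2'⟩ := h'
  refine ⟨δ + δ', by linarith, by linarith, (g'⁻¹ * d * g'⁻¹⁻¹) * d',
    S.D_mul (S.D_conj hd _) hd', ?_⟩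
  refine S.LJ_cast (S.LJ_mul h2 h2') ?_ ?_
  · simp [mul_assoc]
  · ring

lemma B_of_mem {J : Finset ι} {ε : ℝ} (hε : 0 ≤ ε) {g : ι → H} {r : ℝ} (h : g ∈ S.LJ J r) :
    S.B J ε g r :=
  ⟨0, le_rfl, hε, 1, S.D_one J, by simpa using h⟩

/-- two-sided version -/
def C (J : Finset ι) (ε : ℝ) (g : ι → H) (r : ℝ) : Prop := S.B J ε g r ∧ S.B J ε g⁻¹ (-r)

lemma C_mul {J : Finset ι} {ε ε' : ℝ} {g g' : ι → H} {r r' : ℝ} (h : S.C J ε g r)
    (h' : S.C J ε' g' r') : S.C J (ε + ε') (g * g') (r + r') := by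
  refine ⟨S.B_mul h.1 h'.1, ?_⟩
  have h3 := S.B_mul h'.2 h.2
  rw [mul_inv_rev, add_comm ε, neg_add_rev]
  exact h3

lemma C_inv {J : Finset ι} {ε : ℝ} {g : ι → H} {r : ℝ} (h : S.C J ε g r) : S.C J ε g⁻¹ (-r) :=
  ⟨h.2, by simpa using h.1⟩

lemma C_const (J : Finset ι) {ε : ℝ} (hε : 0 ≤ ε) (h : H) : S.C J ε (fun _ => h) 0 :=
  ⟨S.B_of_mem hε (S.LJ_const J h), by
    rw [neg_zero]; exact S.B_of_mem hε (S.LJ_const J h⁻¹)⟩

lemma C_comm {J : Finset ι} {ε : ℝ} {g g' : ι → H} {r r' : ℝ} (h : S.C J ε g r)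
    (h' : S.C J ε g' r') : S.C J (4 * ε) ⁅g, g'⁆ 0 := by
  have h3 := S.C_mul (S.C_mul (S.C_mul h h') (S.C_inv h)) (S.C_inv h')
  have e1 : ε + ε + ε + ε = 4 * ε := by ring
  have e2 : r + r' + -r + -r' = 0 := by ring
  rw [e1, e2] at h3
  exact h3

lemma C_pair [DecidableEq ι] {A : List (ι → ℝ)} (hA : deg A = δA) {J : Finset ι}
    {i j k : ι} (hne : i ≠ j) (hij : ∃ w ∈ A, w i ≠ w j) (hi : i ∈ J.erase k) (hj : j ∈ J.erase k)
    (hR : S.R (J.erase k)) (f : FreeGroup ℝ) {ε : ℝ} (hε : 0 < ε) :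
    ∃ y r, S.C J ε y r ∧ y i = S.ψ f ∧ y j = 1 := by
  obtain ⟨y0, hy0, e1, e2⟩ := S.Z_pair hA hR hne hij f
  obtain ⟨y, hy, ey⟩ := hy0 (ε / 2) (by positivity)
  obtain ⟨Y, hY, eY⟩ := (Subgroup.inv_mem _ hy0) (ε / 2) (by positivity)
  refine ⟨y, ε / 2, ⟨S.B_of_mem hε.le (S.mem_LJ_of_mem hy), ε, hε.le, le_rfl, y * Y, ?_, ?_⟩,
    (ey i hi) ▸ e1, (ey j hj) ▸ e2⟩
  · apply S.D_single _ k
    · intro l hl
      rw [Pi.mul_apply, ← ey l hl, ← eY l hl]; simp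
    · have h := S.LJ_mul (J := J) (S.mem_LJ_of_mem hy) (S.mem_LJ_of_mem hY)
      simpa using h
  · refine S.LJ_cast (S.mem_LJ_of_mem (J := J) hY) ?_ ?_
    · simp
    · ring

/-- elements realised at coordinate `i`, trivially on `K`, with negligible degree -/
def Gp (J K : Finset ι) (i : ι) : Subgroup (FreeGroup ℝ) where
  carrier := {f | ∀ ε : ℝ, 0 < ε → ∃ y, S.C J ε y 0 ∧ y i = S.ψ f ∧ ∀ j ∈ K, y j = 1}
  one_mem' := fun ε hε => ⟨fun _ => 1, S.C_const J hε.le 1, by simp, by simp⟩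
  mul_mem' := by
    intro a b ha hb ε hε
    obtain ⟨y, hy, e1, e2⟩ := ha (ε / 2) (by positivity)
    obtain ⟨z, hz, e3, e4⟩ := hb (ε / 2) (by positivity)
    refine ⟨y * z, by simpa using S.C_mul hy hz, by simp [e1, e3], fun j hj => ?_⟩
    simp [e2 j hj, e4 j hj]
  inv_mem' := by
    intro a ha ε hε
    obtain ⟨y, hy, e1, e2⟩ := ha ε hε
    exact ⟨y⁻¹, by simpa using S.C_inv hy, by simp [e1], fun j hj => by simp [e2 j hj]⟩

lemma lcs_le_Gp [DecidableEq ι] {J : Finset ι} {i : ι}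
    (hp : ∀ j ∈ J.erase i, ∀ (f : FreeGroup ℝ) (ε : ℝ), 0 < ε →
      ∃ y r, S.C J ε y r ∧ y i = S.ψ f ∧ y j = 1)
    (K : Finset ι) (hK : K ⊆ J.erase i) : lcs (FreeGroup ℝ) K.card ≤ S.Gp J K i := by
  induction K using Finset.induction_on with
  | empty =>
    intro f _ ε hε
    exact ⟨fun _ => S.ψ f, S.C_const J hε.le _, rfl, by simp⟩
  | insert j K hjK ih =>
    rw [Finset.card_insert_of_notMem hjK, lcs, Subgroup.lowerCentralSeries_succ,
      Subgroup.commutator_le]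
    intro f hf f' _ ε hε
    obtain ⟨y, hy, e1, e2⟩ :=
      ih ((Finset.subset_insert _ _).trans hK) hf (ε / 4) (by positivity)
    obtain ⟨z, r, hz, e3, e4⟩ := hp j (hK (Finset.mem_insert_self _ _)) f' (ε / 4) (by positivity)
    refine ⟨⁅y, z⁆, ?_, ?_, ?_⟩
    · have h := S.C_comm hy hz
      have e : 4 * (ε / 4) = ε := by ring
      rwa [e] at h
    · rw [map_commutatorElement, ← e1, ← e3]; rfl
    · intro l hl
      rcases Finset.mem_insert.mp hl with rfl | hl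
      · simp [commutatorElement_def, e4]
      · simp [commutatorElement_def, e2 l hl]

lemma negligible [DecidableEq ι] {J : Finset ι}
    (hp : ∀ i ∈ J, ∀ j ∈ J.erase i, ∀ (f : FreeGroup ℝ) (ε : ℝ), 0 < ε →
      ∃ y r, S.C J ε y r ∧ y i = S.ψ f ∧ y j = 1)
    (f : ι → FreeGroup ℝ) (hf : ∀ i, f i ∈ lcs (FreeGroup ℝ) J.card)
    (I : Finset ι) (hI : I ⊆ J) :
    ∀ ε : ℝ, 0 < ε → ∃ y, S.B J ε y 0 ∧ ∀ j ∈ J, y j = if j ∈ I then S.ψ (f j) else 1 := by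
  induction I using Finset.induction_on with
  | empty =>
    intro ε hε
    exact ⟨1, S.B_of_mem hε.le (S.LJ_one J), by simp⟩
  | insert i I hiI ih =>
    intro ε hε
    have hi : i ∈ J := hI (Finset.mem_insert_self _ _)
    obtain ⟨y, hy, e1⟩ := ih ((Finset.subset_insert _ _).trans hI) (ε / 2) (by positivity)
    have hle : lcs (FreeGroup ℝ) J.card ≤ lcs (FreeGroup ℝ) (J.erase i).card :=
      Subgroup.lowerCentralSeries_antitone _ (Finset.card_erase_le)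
    obtain ⟨z, hz, e2, e3⟩ :=
      S.lcs_le_Gp (hp i hi) (J.erase i) subset_rfl (hle (hf i)) (ε / 2) (by positivity)
    refine ⟨z * y, by simpa using S.B_mul hz.1 hy, fun j hj => ?_⟩
    by_cases hji : j = i
    · subst hji
      simp [e2, e1 j hj, hiI]
    · simp [e3 j (Finset.mem_erase.mpr ⟨hji, hj⟩), e1 j hj, hji]

lemma overlap [DecidableEq ι] {A : List (ι → ℝ)} (hA : deg A = δA) (habr : ABR δA) {J : Finset ι}
    (hp : ∀ i ∈ J, ∀ j ∈ J.erase i, ∀ (f : FreeGroup ℝ) (ε : ℝ), 0 < ε →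
      ∃ y r, S.C J ε y r ∧ y i = S.ψ f ∧ y j = 1)
    {s Δ : ℝ} (hs : 0 < s) (hΔ : 0 ≤ Δ) : ∃ y, y ∈ S.LJ J s ∧ y ∈ S.LJ J (s + Δ) := by
  rcases hΔ.eq_or_lt with rfl | hΔ
  · obtain ⟨y, hy⟩ := S.L_nonempty hA hs.le
    exact ⟨y, S.mem_LJ_of_mem hy, by simpa using S.mem_LJ_of_mem hy⟩
  obtain ⟨U, V, t, ht0, ht, hU, hV, hUV⟩ :=
    habr.exists_pair J.card hΔ (η := s / 2) (by positivity)
  obtain ⟨y, ⟨δ, hδ0, hδ, d, hd, hyd⟩, ey⟩ :=
    S.negligible hp (fun i => ev U i * (ev V i)⁻¹) hUV J subset_rfl (s / 2) (by positivity)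
  have hu : (fun i => S.ψ (ev U i)) ∈ S.LJ J (t + Δ) :=
    S.mem_LJ_of_mem (hU ▸ S.word_mem U)
  have hv : (fun i => S.ψ (ev V i)) ∈ S.LJ J t :=
    S.mem_LJ_of_mem (hV ▸ S.word_mem V)
  obtain ⟨w, hw⟩ := S.L_nonempty hA (t := s - δ - t) (by linarith)
  have hw' := S.mem_LJ_of_mem (J := J) hw
  refine ⟨y * d * (fun i => S.ψ (ev V i)) * w, ?_, ?_⟩
  · exact S.LJ_cast (S.LJ_mul (S.LJ_mul hyd hv) hw') rfl (by ring)
  · have h := S.LJ_mul (S.LJ_mul hu (hd (fun i => S.ψ (ev V i))⁻¹)) hw'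
    have e : t + Δ + δ + (s - δ - t) = s + Δ := by ring
    rw [e] at h
    refine S.LJ_congr h fun j hj => ?_
    simp [ey j hj, hj, mul_assoc]

lemma R_of_overlap {A : List (ι → ℝ)} (hA : deg A = δA) {J : Finset ι}
    (ho : ∀ s Δ : ℝ, 0 < s → 0 ≤ Δ → ∃ y, y ∈ S.LJ J s ∧ y ∈ S.LJ J (s + Δ)) : S.R J := by
  classical
  have key : ∀ (Δ : ℝ → ℝ) (T : Finset ℝ), (∀ t ∈ T, 0 ≤ Δ t) → ∀ s : ℝ, 0 < s →
      ∃ y, y ∈ S.LJ J s ∧ ∀ t ∈ T, y ∈ S.LJ J (s + Δ t) := by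
    intro Δ T
    induction T using Finset.induction_on with
    | empty =>
      intro _ s hs
      obtain ⟨y, hy⟩ := S.L_nonempty hA hs.le
      exact ⟨y, S.mem_LJ_of_mem hy, by simp⟩
    | insert a T _ ih =>
      intro hT s hs
      obtain ⟨y, hy, hy'⟩ := ih (fun t ht => hT t (Finset.mem_insert_of_mem ht)) (s / 2)
        (by positivity)
      obtain ⟨z, hz, hz'⟩ := ho (s / 2) (Δ a) (by positivity) (hT a (Finset.mem_insert_self _ _))
      refine ⟨y * z, by simpa using S.LJ_mul hy hz, fun t ht => ?_⟩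
      rcases Finset.mem_insert.mp ht with rfl | ht
      · exact S.LJ_cast (S.LJ_mul hy hz') rfl (by ring)
      · exact S.LJ_cast (S.LJ_mul (hy' t ht) hz) rfl (by ring)
  have h := S.fip J ∅ 1 ?_
  · obtain ⟨y, hy, -⟩ := h
    intro t ht
    have h1 := S.LJ_mul (hy (t / 2) (by positivity)) (S.inv_mem J y hy (t / 2) (by positivity))
    simpa using h1
  · intro T hT
    obtain ⟨η, hη, hηT⟩ : ∃ η : ℝ, 0 < η ∧ ∀ t ∈ T, η ≤ t := by
      rcases T.eq_empty_or_nonempty with rfl | hne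
      · exact ⟨1, one_pos, by simp⟩
      · exact ⟨T.min' hne, hT _ (T.min'_mem hne), fun t ht => T.min'_le t ht⟩
    obtain ⟨y, -, hy⟩ := key (fun t => t - η) T (fun t ht => by linarith [hηT t ht]) η hη
    refine ⟨y, fun t ht => ?_, by simp⟩
    exact S.LJ_cast (hy t ht) rfl (by ring)

lemma R_small [DecidableEq ι] {A : List (ι → ℝ)} (hA : deg A = δA) {J : Finset ι}
    (hJ : J.card ≤ 2) : S.R J := by
  intro t ht
  rcases J.eq_empty_or_nonempty with rfl | ⟨i, hi⟩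
  · obtain ⟨y, hy⟩ := S.L_nonempty hA ht.le
    exact ⟨y, hy, by simp⟩
  obtain ⟨j, hj⟩ : ∃ j, ∀ k ∈ J, k = i ∨ k = j := by
    have h1 : (J.erase i).card ≤ 1 := by rw [Finset.card_erase_of_mem hi]; omega
    rcases (J.erase i).eq_empty_or_nonempty with h | ⟨j, hj⟩
    · refine ⟨i, fun k hk => Or.inl ?_⟩
      by_contra hki
      have : k ∈ J.erase i := Finset.mem_erase.mpr ⟨hki, hk⟩
      simp [h] at this
    · refine ⟨j, fun k hk => ?_⟩
      by_cases hki : k = i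
      · exact Or.inl hki
      · exact Or.inr (Finset.card_le_one.mp h1 _ (Finset.mem_erase.mpr ⟨hki, hk⟩) _ hj)
  obtain ⟨y, hy, e1, e2⟩ := S.Q_one_list i j A (Real.sqrt (t / 2))
  rw [hA, Real.sq_sqrt (by positivity)] at hy
  have e : 2 * (t / 2) = t := by ring
  rw [e] at hy
  refine ⟨y, hy, fun k hk => ?_⟩
  rcases hj k hk with rfl | rfl
  · simp [e1]
  · simp [e2]

theorem R_all [DecidableEq ι] {A : List (ι → ℝ)} (hA : deg A = δA)
    (hinj : ∀ i j, i ≠ j → ∃ w ∈ A, w i ≠ w j) (habr : ABR δA) (J : Finset ι) : S.R J := by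
  induction h : J.card using Nat.strong_induction_on generalizing J with
  | _ n ih =>
    by_cases hJ : J.card ≤ 2
    · exact S.R_small hA hJ
    apply S.R_of_overlap hA
    intro s Δ hs hΔ
    apply S.overlap hA habr _ hs hΔ
    intro i hi j hj f ε hε
    have hj' := Finset.mem_erase.mp hj
    obtain ⟨k, hk⟩ : ((J.erase i).erase j).Nonempty := by
      rw [← Finset.card_pos, Finset.card_erase_of_mem hj, Finset.card_erase_of_mem hi]
      omega
    have hk1 := Finset.mem_erase.mp hk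
    have hk2 := Finset.mem_erase.mp hk1.2
    refine S.C_pair hA hj'.1.symm (hinj i j hj'.1.symm) (k := k)
      (Finset.mem_erase.mpr ⟨hk2.1.symm, hi⟩) (Finset.mem_erase.mpr ⟨hk1.1.symm, hj'.2⟩) ?_ f hε
    refine ih (J.erase k).card ?_ _ rfl
    rw [← h]
    exact Finset.card_erase_lt_of_mem hk2.2

end Setup

end Vale.Agent.P058
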