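import Mathlib.Analysis.InnerProductSpace.PiL2
import Mathlib.RingTheory.TensorProduct.Basic
import Mathlib.RingTheory.TensorProduct.Maps
import Mathlib.Algebra.Field.Subfield.Basic
import Mathlib.Algebra.Algebra.Rat

namespace Vale.Agent.P058

open scoped TensorProduct

/-- `A` is Ramsey: for every `r ≥ 2` there is `D ≥ 1` such that every `r`-colouring of `ℝ^D` is
constant on some congruent copy of `A` (the image of `A` under a map preserving all pairwise
distances of points of `A`). -/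
def IsRamsey {d : ℕ} (A : Finset (EuclideanSpace ℝ (Fin d))) : Prop :=
  ∀ r : ℕ, 2 ≤ r → ∃ D : ℕ, 1 ≤ D ∧ ∀ c : EuclideanSpace ℝ (Fin D) → Fin r,
    ∃ f : EuclideanSpace ℝ (Fin d) → EuclideanSpace ℝ (Fin D),
      (∀ x ∈ A, ∀ y ∈ A, dist (f x) (f y) = dist x y) ∧ ∃ k : Fin r, ∀ x ∈ A, c (f x) = k

/-- `X` is transitive: the isometries of the ambient space mapping `X` onto itself act
transitively on `X`. -/
def IsTransitive {n : ℕ} (X : Finset (EuclideanSpace ℝ (Fin n))) : Prop :=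
  ∀ x ∈ X, ∀ y ∈ X, ∃ g : EuclideanSpace ℝ (Fin n) ≃ᵢ EuclideanSpace ℝ (Fin n),
    g '' (X : Set (EuclideanSpace ℝ (Fin n))) = X ∧ g x = y

/-- `A` is subtransitive: it is congruent to a subset of a finite transitive set. -/
def IsSubtransitive {d : ℕ} (A : Finset (EuclideanSpace ℝ (Fin d))) : Prop :=
  ∃ (n : ℕ) (X : Finset (EuclideanSpace ℝ (Fin n))), IsTransitive X ∧
    ∃ f : EuclideanSpace ℝ (Fin d) → EuclideanSpace ℝ (Fin n),
      (∀ x ∈ A, ∀ y ∈ A, dist (f x) (f y) = dist x y) ∧ ∀ x ∈ A, f x ∈ X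

/-- The tensor criterion over a subfield `F` of `ℝ`: there is a `(d+1) × (d+1)` matrix `P` over
`F ⊗[ℚ] F` such that `(p ⊗ 1)ᵀ P (1 ⊗ p) = 0` for the homogeneous coordinate vector
`p = (1, x₁, …, x_d)` of each point `x` of `A`, and the multiplication map `F ⊗[ℚ] F → F` sends
the lower right `d × d` block of `P` to the identity matrix. -/
def TensorCriterion {d : ℕ} (F : Subfield ℝ) (A : Finset (EuclideanSpace ℝ (Fin d))) : Prop :=
  ∃ P : Fin (d + 1) → Fin (d + 1) → F ⊗[ℚ] F,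
    (∀ x ∈ A, ∀ p : Fin (d + 1) → F, p 0 = 1 → (∀ k : Fin d, (p k.succ : ℝ) = x k) →
      ∑ α, ∑ β, (p α ⊗ₜ[ℚ] (1 : F)) * P α β * ((1 : F) ⊗ₜ[ℚ] p β) = 0) ∧
    ∀ k l : Fin d, Algebra.TensorProduct.lmul' ℚ (P k.succ l.succ) = if k = l then (1 : F) else 0

end Vale.Agent.P058
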