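import Mathlib.Analysis.InnerProductSpace.Projection.Basic
import Mathlib.Analysis.InnerProductSpace.Projection.FiniteDimensional
import Mathlib.LinearAlgebra.Dual.Lemmas
import Mathlib.LinearAlgebra.Basis.VectorSpace
import Mathlib.Data.ZMod.Basic
import Mathlib.Tactic
import Vale.Agent.P058.Defs

/-!
Necessity of the tensor criterion.
-/

namespace Vale.Agent.P058

open scoped TensorProduct RealInnerProductSpace

lemma exists_beta (F : Subfield ℝ) :
    ∃ (β : ℝ →+ ℝ →+ F ⊗[ℚ] F) (π : ℝ →+ F), π 1 = 1 ∧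
      (∀ (f : F) x y, β ((f : ℝ) * x) y = (f ⊗ₜ[ℚ] (1 : F)) * β x y) ∧
      (∀ (f : F) x y, β x ((f : ℝ) * y) = β x y * ((1 : F) ⊗ₜ[ℚ] f)) ∧
      ∀ x y, Algebra.TensorProduct.lmul' ℚ (β x y) = π (x * y) := by
  obtain ⟨π, hπ⟩ := Module.Projective.exists_dual_eq_one F (V := ℝ) (x := (1 : ℝ)) one_ne_zero
  let b := Module.Basis.ofVectorSpace F ℝ
  let β0 : ℝ → (ℝ →ₗ[F] F ⊗[ℚ] F) := fun y => b.constr ℕ (fun s => (1 : F) ⊗ₜ[ℚ] π (b s * y))
  have hadd : ∀ y y', β0 (y + y') = β0 y + β0 y' := by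
    intro y y'
    refine b.ext fun s => ?_
    simp [β0, mul_add, TensorProduct.tmul_add]
  let β : ℝ →+ ℝ →+ F ⊗[ℚ] F := AddMonoidHom.mk'
    (fun x => AddMonoidHom.mk' (fun y => β0 y x) (fun y y' => by rw [hadd]; rfl))
    (fun x x' => by ext y; simp)
  have hsm : ∀ (f : F) (τ : F ⊗[ℚ] F), f • τ = (f ⊗ₜ[ℚ] (1 : F)) * τ := by
    intro f τ
    rw [Algebra.smul_def]; rfl
  refine ⟨β, π.toAddMonoidHom, hπ, ?_, ?_, ?_⟩
  · intro f x y
    change β0 y (f • x) = _ * β0 y x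
    rw [map_smul, hsm]
  · intro f x y
    change β0 (f • y) x = β0 y x * _
    have : β0 (f • y) = (LinearMap.mulRight F ((1 : F) ⊗ₜ[ℚ] f)) ∘ₗ β0 y := by
      refine b.ext fun s => ?_
      simp [β0, mul_comm]
    rw [this]; rfl
  · intro x y
    change (Algebra.TensorProduct.lmul'' ℚ).toLinearMap (β0 y x) = π (x * y)
    have : (Algebra.TensorProduct.lmul'' ℚ).toLinearMap ∘ₗ β0 y =
        π ∘ₗ LinearMap.mulRight F y := by
      refine b.ext fun s => ?_
      simp only [β0, LinearMap.comp_apply, Module.Basis.constr_basis, LinearMap.mulRight_apply]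
      change Algebra.TensorProduct.lmul' ℚ ((1 : F) ⊗ₜ[ℚ] π (b s * y)) = _
      rw [Algebra.TensorProduct.lmul'_apply_tmul, one_mul]
    exact LinearMap.congr_fun this x

lemma exists_linear_ext {d D : ℕ} (A : Finset (EuclideanSpace ℝ (Fin d)))
    {x0 : EuclideanSpace ℝ (Fin d)} (hx0 : x0 ∈ A)
    (f : EuclideanSpace ℝ (Fin d) → EuclideanSpace ℝ (Fin D))
    (hf : ∀ x ∈ A, ∀ y ∈ A, dist (f x) (f y) = dist x y) :
    ∃ (L : EuclideanSpace ℝ (Fin d) →ₗ[ℝ] EuclideanSpace ℝ (Fin D))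
      (N : EuclideanSpace ℝ (Fin d) →ₗ[ℝ] EuclideanSpace ℝ (Fin d)),
      (∀ x ∈ A, L (x - x0) = f x - f x0) ∧ (∀ x ∈ A, N (x - x0) = 0) ∧
      ∀ x y, ⟪L x, L y⟫ + ⟪N x, N y⟫ = ⟪x, y⟫ := by
  classical
  let T : (A → ℝ) →ₗ[ℝ] EuclideanSpace ℝ (Fin d) :=
    Fintype.linearCombination ℝ (fun i : A => (i : EuclideanSpace ℝ (Fin d)) - x0)
  let T' : (A → ℝ) →ₗ[ℝ] EuclideanSpace ℝ (Fin D) :=
    Fintype.linearCombination ℝ (fun i : A => f i - f x0)
  have hin : ∀ i j : A, ⟪f i - f x0, f j - f x0⟫ =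
      ⟪(i : EuclideanSpace ℝ (Fin d)) - x0, (j : EuclideanSpace ℝ (Fin d)) - x0⟫ := by
    intro i j
    rw [real_inner_eq_norm_mul_self_add_norm_mul_self_sub_norm_sub_mul_self_div_two,
      real_inner_eq_norm_mul_self_add_norm_mul_self_sub_norm_sub_mul_self_div_two,
      sub_sub_sub_cancel_right, sub_sub_sub_cancel_right]
    simp only [← dist_eq_norm]
    rw [hf i i.2 x0 hx0, hf j j.2 x0 hx0, hf i i.2 j j.2]
  have hT : ∀ c c', ⟪T' c, T' c'⟫ = ⟪T c, T c'⟫ := by
    intro c c'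
    simp only [T, T', Fintype.linearCombination_apply, sum_inner, inner_sum, real_inner_smul_left,
      real_inner_smul_right, hin]
  let W := LinearMap.range T
  obtain ⟨g, hg⟩ := T.rangeRestrict.exists_rightInverse_of_surjective T.range_rangeRestrict
  have hg' : ∀ w : W, T (g w) = w := fun w => congrArg Subtype.val (LinearMap.congr_fun hg w)
  have hmem : ∀ x ∈ A, x - x0 ∈ W := by
    intro x hx
    refine ⟨Pi.single ⟨x, hx⟩ 1, ?_⟩
    simp [T]
  refine ⟨T' ∘ₗ g ∘ₗ (W.orthogonalProjectionOnto).toLinearMap,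
    LinearMap.id - W.starProjection.toLinearMap, ?_, ?_, ?_⟩
  · intro x hx
    have h1 : T' (Pi.single ⟨x, hx⟩ 1) = f x - f x0 := by simp [T']
    have h2 : T (Pi.single ⟨x, hx⟩ 1) = x - x0 := by simp [T]
    rw [← h1, ← sub_eq_zero]
    change T' (g (W.orthogonalProjectionOnto (x - x0))) - _ = 0
    rw [← map_sub, ← inner_self_eq_zero (𝕜 := ℝ), hT, inner_self_eq_zero, map_sub, hg', h2,
      Submodule.coe_orthogonalProjectionOnto_apply,
      Submodule.starProjection_eq_self_iff.mpr (hmem x hx), sub_self]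
  · intro x hx
    change (x - x0) - W.starProjection (x - x0) = 0
    rw [Submodule.starProjection_eq_self_iff.mpr (hmem x hx), sub_self]
  · intro x y
    change ⟪T' (g (W.orthogonalProjectionOnto x)), T' (g (W.orthogonalProjectionOnto y))⟫ +
      ⟪x - W.starProjection x, y - W.starProjection y⟫ = _
    rw [hT, hg', hg', Submodule.coe_orthogonalProjectionOnto_apply,
      Submodule.coe_orthogonalProjectionOnto_apply]
    have h1 : ⟪x - W.starProjection x, W.starProjection y⟫ = 0 :=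
      Submodule.starProjection_inner_eq_zero _ _ (W.starProjection_apply_mem y)
    have h2 : ⟪y - W.starProjection y, W.starProjection x⟫ = 0 :=
      Submodule.starProjection_inner_eq_zero _ _ (W.starProjection_apply_mem x)
    rw [real_inner_comm] at h2
    simp only [inner_sub_left, inner_sub_right] at h1 h2 ⊢
    linarith

lemma real_inner_eq_sum {n : ℕ} (x y : EuclideanSpace ℝ (Fin n)) : ⟪x, y⟫ = ∑ k, x k * y k := by
  simp [PiLp.inner_apply, mul_comm]

lemma exists_frame {d D : ℕ} (A : Finset (EuclideanSpace ℝ (Fin d)))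
    {x0 : EuclideanSpace ℝ (Fin d)} (hx0 : x0 ∈ A)
    (f : EuclideanSpace ℝ (Fin d) → EuclideanSpace ℝ (Fin D))
    (hf : ∀ x ∈ A, ∀ y ∈ A, dist (f x) (f y) = dist x y) :
    ∃ (u : Fin (d + 1) → Fin D → ℝ) (v : Fin (d + 1) → Fin d → ℝ),
      (∀ x ∈ A, ∀ k, f x k = u 0 k + ∑ a : Fin d, x a * u a.succ k) ∧
      (∀ x ∈ A, ∀ k, 0 = v 0 k + ∑ a : Fin d, x a * v a.succ k) ∧
      ∀ a b : Fin d, ∑ k, u a.succ k * u b.succ k + ∑ k, v a.succ k * v b.succ k =
        if a = b then 1 else 0 := by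
  obtain ⟨L, N, h1, h2, h3⟩ := exists_linear_ext A hx0 f hf
  have hdec : ∀ x : EuclideanSpace ℝ (Fin d),
      x = ∑ a : Fin d, x a • EuclideanSpace.single a (1 : ℝ) := by
    intro x
    ext k
    simp [Pi.single_apply]
  refine ⟨Fin.cons (fun k => (f x0 - L x0) k) (fun a k => L (EuclideanSpace.single a 1) k),
    Fin.cons (fun k => (-N x0) k) (fun a k => N (EuclideanSpace.single a 1) k), ?_, ?_, ?_⟩
  · intro x hx k
    have e : f x = (f x0 - L x0) + L x := by
      have := h1 x hx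
      rw [map_sub] at this
      rw [← sub_eq_zero, ← sub_eq_zero.mpr this.symm]; abel
    rw [e]
    conv_lhs => rw [hdec x]
    simp
  · intro x hx k
    have e : (0 : EuclideanSpace ℝ (Fin d)) = (-N x0) + N x := by
      have := h2 x hx
      rw [map_sub] at this
      rw [← this]; abel
    have e2 : (0 : ℝ) = ((-N x0) + N x) k := by rw [← e]; rfl
    rw [e2]
    conv_lhs => rw [hdec x]
    simp
  · intro a b
    have := h3 (EuclideanSpace.single a 1) (EuclideanSpace.single b 1)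
    rw [real_inner_eq_sum, real_inner_eq_sum, real_inner_eq_sum] at this
    simp only [Fin.cons_succ]
    rw [this]
    simp [eq_comm]

lemma floor_colouring {ι : Type*} [Fintype ι] [Nonempty ι] (g h : ι → ℚ) (hg : ∑ i, g i = 1)
    (hh : ∑ i, h i = 0)
    (hc : ∀ i, ((⌊(Fintype.card ι : ℚ) * g i⌋ : ℤ) : ZMod (2 * Fintype.card ι)) =
      ((⌊(Fintype.card ι : ℚ) * h i⌋ : ℤ) : ZMod (2 * Fintype.card ι))) : False := by
  set n := Fintype.card ι with hn
  have hn0 : (0 : ℚ) < n := by exact_mod_cast Fintype.card_pos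
  have h1 : ∀ i, ∃ m : ℤ, |(n : ℚ) * g i - n * h i - 2 * n * m| < 1 := by
    intro i
    obtain ⟨m, hm⟩ := (ZMod.intCast_eq_intCast_iff_dvd_sub _ _ _).mp (hc i).symm
    refine ⟨m, ?_⟩
    have e : ((⌊(n : ℚ) * g i⌋ : ℤ) : ℚ) - (⌊(n : ℚ) * h i⌋ : ℤ) = 2 * n * m := by
      exact_mod_cast hm
    have a1 := Int.floor_le ((n : ℚ) * g i)
    have a2 := Int.lt_floor_add_one ((n : ℚ) * g i)
    have a3 := Int.floor_le ((n : ℚ) * h i)
    have a4 := Int.lt_floor_add_one ((n : ℚ) * h i)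
    rw [abs_lt]
    constructor <;> linarith
  choose m hm using h1
  have h2 : |∑ i, ((n : ℚ) * g i - n * h i - 2 * n * m i)| < n := by
    refine lt_of_le_of_lt (Finset.abs_sum_le_sum_abs _ _) ?_
    have := Finset.sum_lt_sum_of_nonempty (s := Finset.univ) Finset.univ_nonempty
      (fun i _ => hm i)
    simpa using this
  rw [Finset.sum_sub_distrib, Finset.sum_sub_distrib, ← Finset.mul_sum, ← Finset.mul_sum,
    ← Finset.mul_sum, hg, hh] at h2
  have h3 : (n : ℚ) * 1 - n * 0 - 2 * n * ∑ i, (m i : ℚ) = n * ((1 - 2 * ∑ i, m i : ℤ) : ℚ) := by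
    push_cast; ring
  rw [h3, abs_mul, abs_of_pos hn0] at h2
  have h4 : |((1 - 2 * ∑ i, m i : ℤ) : ℚ)| < 1 := by
    by_contra hcon
    push Not at hcon
    nlinarith
  have h5 : |(1 - 2 * ∑ i, m i : ℤ)| < 1 := by exact_mod_cast h4
  rw [abs_lt] at h5
  omega

lemma exists_dual_sep {M : Type*} [AddCommGroup M] [Module ℚ M] {p : Submodule ℚ M} {x : M}
    (hx : x ∉ p) : ∃ f : Module.Dual ℚ M, f x ≠ 0 ∧ p.map f = ⊥ :=
  Submodule.exists_dual_map_eq_bot_of_notMem hx inferInstance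

theorem IsRamsey.tensorCriterion {d : ℕ} {F : Subfield ℝ} {A : Finset (EuclideanSpace ℝ (Fin d))}
    (hA : A.Nonempty) (hF : ∀ x ∈ A, ∀ k, x k ∈ F) (h : IsRamsey A) : TensorCriterion F A := by
  classical
  by_contra hcon
  obtain ⟨x0, hx0⟩ := hA
  obtain ⟨β, π, hπ, hβ1, hβ2, hβ3⟩ := exists_beta F
  let p : A → Fin (d + 1) → F := fun i =>
    Fin.cons 1 (fun k => ⟨(i : EuclideanSpace ℝ (Fin d)) k, hF i i.2 k⟩)
  let Φ : (Fin (d + 1) → Fin (d + 1) → F ⊗[ℚ] F) →ₗ[ℚ] (A → F ⊗[ℚ] F) :=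
    { toFun := fun P i => ∑ a, ∑ b, (p i a ⊗ₜ[ℚ] (1 : F)) * P a b * ((1 : F) ⊗ₜ[ℚ] p i b)
      map_add' := by
        intro P Q; ext1 i
        simp [mul_add, add_mul, Finset.sum_add_distrib]
      map_smul' := by
        intro c P; ext1 i
        simp [Finset.smul_sum] }
  let K0 : Submodule ℚ (Fin (d + 1) → Fin (d + 1) → F ⊗[ℚ] F) :=
    { carrier := {P | ∀ k l : Fin d, Algebra.TensorProduct.lmul' ℚ (P k.succ l.succ) = (0 : F)}
      zero_mem' := by intro k l; simp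
      add_mem' := by intro P Q hP hQ k l; simp [hP k l, hQ k l]
      smul_mem' := by intro c P hP k l; simp [hP k l] }
  let P0 : Fin (d + 1) → Fin (d + 1) → F ⊗[ℚ] F := fun a b => if a = b then 1 else 0
  have hP0 : ∀ k l : Fin d, Algebra.TensorProduct.lmul' ℚ (P0 k.succ l.succ) =
      if k = l then (1 : F) else 0 := by
    intro k l
    by_cases hkl : k = l <;> simp [P0, hkl]
  have hb : Φ P0 ∉ K0.map Φ := by
    rintro ⟨P, hP, hPe⟩
    apply hcon
    refine ⟨P0 - P, ?_, ?_⟩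
    · intro x hx q hq0 hq
      have e : q = p ⟨x, hx⟩ := by
        ext a
        refine Fin.cases ?_ (fun k => ?_) a
        · simp [p, hq0]
        · simp [p, hq]
      have : Φ (P0 - P) ⟨x, hx⟩ = 0 := by rw [map_sub, hPe, sub_self]; rfl
      rw [e]
      exact this
    · intro k l
      rw [Pi.sub_apply, Pi.sub_apply, map_sub, hP0, hP k l, sub_zero]
  obtain ⟨lam0, hl1, hl2⟩ := exists_dual_sep hb
  let lam := (lam0 (Φ P0))⁻¹ • lam0
  have hlam1 : lam (Φ P0) = 1 := by simp [lam, hl1]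
  have hlam0 : ∀ P ∈ K0, lam (Φ P) = 0 := by
    intro P hP
    have : lam0 (Φ P) ∈ (K0.map Φ).map lam0 :=
      Submodule.mem_map_of_mem (Submodule.mem_map_of_mem hP)
    rw [hl2, Submodule.mem_bot] at this
    simp [lam, this]
  have hsum : ∀ z : A → F ⊗[ℚ] F, ∑ i, lam (Pi.single i (z i)) = lam z := by
    intro z
    rw [← map_sum, Finset.univ_sum_single]
  have : Nonempty A := ⟨⟨x0, hx0⟩⟩
  have : NeZero (2 * Fintype.card A) := ⟨by have := Fintype.card_pos (α := A); omega⟩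
  obtain ⟨D, -, hD⟩ := h (Fintype.card (A → ZMod (2 * Fintype.card A)) + 2) (by omega)
  let Q : EuclideanSpace ℝ (Fin D) → F ⊗[ℚ] F := fun y => ∑ k, β (y k) (y k)
  let col : EuclideanSpace ℝ (Fin D) → A → ZMod (2 * Fintype.card A) := fun y i =>
    ((⌊(Fintype.card A : ℚ) * lam (Pi.single i (Q y))⌋ : ℤ) : ZMod (2 * Fintype.card A))
  obtain ⟨f, hf, k, hk⟩ := hD (fun y => Fin.castAdd 2 (Fintype.equivFin _ (col y)))
  have hcol : ∀ i : A, col (f i) = col (f x0) := by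
    intro i
    have := (hk i i.2).trans (hk x0 hx0).symm
    exact (Fintype.equivFin _).injective (Fin.castAdd_injective _ _ this)
  refine floor_colouring (fun i : A => lam (Pi.single i (Q (f i))))
    (fun i : A => lam (Pi.single i (Q (f x0)))) ?_ ?_ (fun i => congrFun (hcol i) i)
  · obtain ⟨u, v, hu, hv, huv⟩ := exists_frame A hx0 f hf
    let U : Fin (d + 1) → Fin (d + 1) → F ⊗[ℚ] F := fun a b =>
      ∑ k, β (u a k) (u b k) + ∑ k, β (v a k) (v b k)
    have hexp : ∀ (i : A) (w : Fin (d + 1) → ℝ),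
        β (w 0 + ∑ a : Fin d, (i : EuclideanSpace ℝ (Fin d)) a * w a.succ)
          (w 0 + ∑ a : Fin d, (i : EuclideanSpace ℝ (Fin d)) a * w a.succ) =
        ∑ a, ∑ b, (p i a ⊗ₜ[ℚ] (1 : F)) * β (w a) (w b) * ((1 : F) ⊗ₜ[ℚ] p i b) := by
      intro i w
      have e : w 0 + ∑ a : Fin d, (i : EuclideanSpace ℝ (Fin d)) a * w a.succ =
          ∑ a, (p i a : ℝ) * w a := by
        rw [Fin.sum_univ_succ]; simp [p]
      rw [e, map_sum β, AddMonoidHom.finsetSum_apply]
      refine Finset.sum_congr rfl fun a _ => ?_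
      rw [map_sum]
      refine Finset.sum_congr rfl fun b _ => ?_
      rw [hβ1, hβ2, mul_assoc]
    have hQ : (fun i : A => Q (f i)) = Φ U := by
      ext1 i
      have e1 : Q (f i) = ∑ k, ∑ a, ∑ b,
          (p i a ⊗ₜ[ℚ] (1 : F)) * β (u a k) (u b k) * ((1 : F) ⊗ₜ[ℚ] p i b) := by
        refine Finset.sum_congr rfl fun k _ => ?_
        rw [hu i i.2 k]
        exact hexp i (fun a => u a k)
      have e2 : 0 = ∑ k, ∑ a, ∑ b,
          (p i a ⊗ₜ[ℚ] (1 : F)) * β (v a k) (v b k) * ((1 : F) ⊗ₜ[ℚ] p i b) := by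
        symm
        refine Finset.sum_eq_zero fun k _ => ?_
        rw [← hexp i (fun a => v a k), ← hv i i.2 k, map_zero]
      rw [← add_zero (Q (f i)), e1, e2]
      change _ = ∑ a, ∑ b, (p i a ⊗ₜ[ℚ] (1 : F)) * U a b * ((1 : F) ⊗ₜ[ℚ] p i b)
      simp only [U, mul_add, add_mul, Finset.sum_add_distrib, Finset.mul_sum, Finset.sum_mul]
      congr 1
      · rw [Finset.sum_comm]
        exact Finset.sum_congr rfl fun a _ => Finset.sum_comm
      · rw [Finset.sum_comm]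
        exact Finset.sum_congr rfl fun a _ => Finset.sum_comm
    rw [hsum (fun i => Q (f i)), hQ, ← hlam1, ← sub_eq_zero, ← map_sub, ← map_sub]
    apply hlam0
    intro a b
    rw [Pi.sub_apply, Pi.sub_apply, map_sub, hP0]
    simp only [U, map_add, map_sum, hβ3]
    rw [← map_sum, ← map_sum, ← map_add, huv]
    split_ifs <;> simp [hπ]
  · rw [hsum (fun _ => Q (f x0))]
    have e : (fun _ : A => Q (f x0)) = Φ (Pi.single 0 (Pi.single 0 (Q (f x0)))) := by
      ext1 i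
      change _ = ∑ a, ∑ b, (p i a ⊗ₜ[ℚ] (1 : F)) *
        (Pi.single 0 (Pi.single 0 (Q (f x0))) : Fin (d + 1) → Fin (d + 1) → F ⊗[ℚ] F) a b *
        ((1 : F) ⊗ₜ[ℚ] p i b)
      simp [Fin.sum_univ_succ, p, ← Algebra.TensorProduct.one_def]
    rw [e]
    apply hlam0
    intro a b
    simp

end Vale.Agent.P058
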