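import Mathlib.Combinatorics.Hindman
import Mathlib.Algebra.FreeMonoid.Basic
import Mathlib.Algebra.Group.MinimalAxioms
import Vale.Agent.P058.Core

/-!
The ultrafilter construction: a minimal idempotent `p` of the compactification of the free monoid,
the group `p * B * p`, and the resulting combinatorial Ramsey theorem.
-/

namespace Vale.Agent.P058

open Filter Topology

section Semigroup

variable {B : Type*} [Semigroup B] [TopologicalSpace B] [CompactSpace B] [T2Space B]

/-- An idempotent in a minimal left ideal. -/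
structure MinIdem (B : Type*) [Semigroup B] where
  p : B
  idem : p * p = p
  min : ∀ x, ∃ u, u * (x * p) = p

lemma exists_minIdem [Nonempty B] (hr : ∀ r : B, Continuous (· * r)) : Nonempty (MinIdem B) := by
  let S : Set (Set B) := {N | IsClosed N ∧ N.Nonempty ∧ ∀ (m : B) (m' : B), m' ∈ N → m * m' ∈ N}
  obtain ⟨N, hN⟩ : ∃ N, Minimal (· ∈ S) N := by
    refine zorn_superset _ fun c hcs hc => ?_
    refine ⟨⋂₀ c, ⟨isClosed_sInter fun t ht => (hcs ht).1, ?_, fun m m' hm' => ?_⟩, fun s hs =>
      Set.sInter_subset_of_mem hs⟩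
    · obtain rfl | hcnemp := c.eq_empty_or_nonempty
      · rw [Set.sInter_empty]
        apply Set.univ_nonempty
      have := hcnemp.coe_sort
      rw [Set.sInter_eq_iInter]
      exact IsCompact.nonempty_iInter_of_directed_nonempty_isCompact_isClosed
        ((↑) : c → Set B) (DirectedOn.directed_val (IsChain.directedOn hc.symm))
        (fun i => (hcs i.prop).2.1) (fun i => (hcs i.prop).1.isCompact) (fun i => (hcs i.prop).1)
    · rw [Set.mem_sInter]
      exact fun t ht => (hcs ht).2.2 m m' (Set.mem_sInter.mp hm' t ht)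
  obtain ⟨hc, hne, hm⟩ := hN.prop
  obtain ⟨p, hp, hpp⟩ := exists_idempotent_in_compact_subsemigroup hr N hne hc.isCompact
    (fun x _ y hy => hm x y hy)
  refine ⟨⟨p, hpp, fun x => ?_⟩⟩
  have h : Set.range (· * (x * p)) = N := by
    apply hN.eq_of_subset
    · refine ⟨(isCompact_range (hr _)).isClosed, Set.range_nonempty _, ?_⟩
      rintro m _ ⟨u, rfl⟩
      exact ⟨m * u, mul_assoc _ _ _⟩
    · rintro _ ⟨u, rfl⟩
      exact hm _ _ (hm _ _ hp)
  rw [← h] at hp
  exact hp

namespace MinIdem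

omit [TopologicalSpace B] [CompactSpace B] [T2Space B]

variable (P : MinIdem B)

/-- the maximal group at `p` -/
def H : Type _ := {h : B // P.p * h = h ∧ h * P.p = h}

/-- the projection `x ↦ p * x * p` -/
def proj (x : B) : P.H :=
  ⟨P.p * x * P.p, by rw [← mul_assoc, ← mul_assoc, P.idem], by rw [mul_assoc, P.idem]⟩

instance : Mul P.H :=
  ⟨fun a b => ⟨a.1 * b.1, by rw [← mul_assoc, a.2.1], by rw [mul_assoc, b.2.2]⟩⟩

instance : One P.H := ⟨⟨P.p, P.idem, P.idem⟩⟩

noncomputable instance : Inv P.H := ⟨fun a => P.proj (Classical.choose (P.min a.1))⟩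

noncomputable instance : Group P.H :=
  Group.ofLeftAxioms (fun a b c => Subtype.ext (mul_assoc a.1 b.1 c.1))
    (fun a => Subtype.ext a.2.1)
    (fun a => Subtype.ext (by
      have h := Classical.choose_spec (P.min a.1)
      change P.p * Classical.choose (P.min a.1) * P.p * a.1 = P.p
      generalize Classical.choose (P.min a.1) = u at h ⊢
      rw [a.2.2] at h
      rw [mul_assoc, a.2.1, mul_assoc, h, P.idem]))

lemma val_mul (a b : P.H) : (a * b).1 = a.1 * b.1 := rfl

lemma val_one : (1 : P.H).1 = P.p := rfl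

lemma proj_val (a : P.H) : P.proj a.1 = a :=
  Subtype.ext (by change P.p * a.1 * P.p = a.1; rw [a.2.1, a.2.2])

lemma mul_idem {e : B} (he : e * e = e) (hep : e * P.p = e) : P.p * e = P.p := by
  obtain ⟨u, hu⟩ := P.min e
  rw [hep] at hu
  rw [← hu, mul_assoc, he]

end MinIdem

end Semigroup

attribute [local instance] Ultrafilter.mul Ultrafilter.semigroup

/-- the compactification of the free monoid on the reals -/
abbrev BM : Type := Ultrafilter (FreeMonoid ℝ)

variable {ι : Type*}

/-- the word in row `i` -/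
def row (U : List (ι → ℝ)) (i : ι) : FreeMonoid ℝ := FreeMonoid.ofList (U.map (· i))

lemma row_append (U V : List (ι → ℝ)) (i : ι) : row (U ++ V) i = row U i * row V i := by
  simp [row]

lemma pure_mul_pure (a b : FreeMonoid ℝ) : (pure a : BM) * pure b = pure (a * b) := rfl

lemma continuous_pure_mul (a : FreeMonoid ℝ) : Continuous (fun u : BM => (pure a : BM) * u) :=
  ultrafilterBasis_is_basis.continuous_iff.2 <| Set.forall_mem_range.mpr fun s ↦
    ultrafilter_isOpen_basic {m : FreeMonoid ℝ | a * m ∈ s}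

/-- tuples of principal ultrafilters of degree `δ` -/
def S0 (δ : ι → ι → ℝ) : Set (ι → BM) :=
  {z | ∃ U : List (ι → ℝ), deg U = δ ∧ z = fun i => pure (row U i)}

/-- the closure of `S0` -/
def Sbar (δ : ι → ι → ℝ) : Set (ι → BM) := closure (S0 δ)

lemma continuous_mul_right_pi (y : ι → BM) : Continuous (fun z : ι → BM => z * y) :=
  continuous_pi fun i => (Ultrafilter.continuous_mul_left (y i)).comp (continuous_apply i)

lemma Sbar_mul {δ δ' : ι → ι → ℝ} {y z : ι → BM} (hy : y ∈ Sbar δ) (hz : z ∈ Sbar δ') :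
    y * z ∈ Sbar (δ + δ') := by
  have h1 : ∀ y ∈ S0 δ, y * z ∈ Sbar (δ + δ') := by
    rintro _ ⟨U, hU, rfl⟩
    have hc : Continuous (fun z : ι → BM => (fun i => (pure (row U i) : BM)) * z) :=
      continuous_pi fun i => (continuous_pure_mul (row U i)).comp (continuous_apply i)
    refine map_mem_closure hc hz ?_
    rintro _ ⟨V, hV, rfl⟩
    refine ⟨U ++ V, by rw [deg_append, hU, hV], ?_⟩
    ext1 i
    rw [row_append]; rfl
  have h2 := map_mem_closure (continuous_mul_right_pi z) hy h1
  rwa [Sbar, closure_closure] at h2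

lemma Sbar_const (u : BM) : (fun _ : ι => u) ∈ Sbar (0 : ι → ι → ℝ) := by
  have hc : Continuous (fun u : BM => (fun _ : ι => u)) := continuous_pi fun _ => continuous_id
  have hu : u ∈ closure (Set.range (pure : FreeMonoid ℝ → BM)) := denseRange_pure u
  refine map_mem_closure hc hu ?_
  rintro _ ⟨m, rfl⟩
  refine ⟨(FreeMonoid.toList m).map (fun a _ => a), ?_, ?_⟩
  · induction (FreeMonoid.toList m) with
    | nil => simp
    | cons a l ih =>
      rw [List.map_cons, deg_cons, ih]
      ext i j; simp [degc]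
  · ext1 i
    simp [row, Function.comp_def]

lemma Sbar_sandwich {δ : ι → ι → ℝ} {y : ι → BM} (hy : y ∈ Sbar δ) (u v : BM) :
    (fun i => u * y i * v) ∈ Sbar δ := by
  have h := Sbar_mul (Sbar_mul (Sbar_const u) hy) (Sbar_const v)
  rw [zero_add, add_zero] at h
  exact h

/-- saturation of `Sbar` outside `J` -/
def SbarJ (J : Finset ι) (δ : ι → ι → ℝ) : Set (ι → BM) := {z | ∃ y ∈ Sbar δ, ∀ j ∈ J, z j = y j}

lemma isClosed_SbarJ (J : Finset ι) (δ : ι → ι → ℝ) : IsClosed (SbarJ J δ) := by
  have hc : Continuous (fun (z : ι → BM) (j : J) => z j) :=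
    continuous_pi fun j => continuous_apply _
  have h : SbarJ J δ = (fun (z : ι → BM) (j : J) => z j) ⁻¹'
      ((fun (z : ι → BM) (j : J) => z j) '' Sbar δ) := by
    ext z
    constructor
    · rintro ⟨y, hy, e⟩
      exact ⟨y, hy, funext fun j => (e j j.2).symm⟩
    · rintro ⟨y, hy, e⟩
      exact ⟨y, hy, fun j hj => (congrFun e ⟨j, hj⟩).symm⟩
  rw [h]
  exact ((isClosed_closure.isCompact.image hc).isClosed).preimage hc

lemma SbarJ_mul {J : Finset ι} {δ δ' : ι → ι → ℝ} {y z : ι → BM} (hy : y ∈ SbarJ J δ)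
    (hz : z ∈ SbarJ J δ') : y * z ∈ SbarJ J (δ + δ') := by
  obtain ⟨y', hy', e⟩ := hy
  obtain ⟨z', hz', e'⟩ := hz
  exact ⟨y' * z', Sbar_mul hy' hz', fun j hj => by simp [e j hj, e' j hj]⟩

/-- the part of `Sbar` inside the group -/
def LP (P : MinIdem BM) (δ : ι → ι → ℝ) : Set (ι → P.H) := {y | (fun i => (y i).1) ∈ Sbar δ}

lemma proj_mem_sat (P : MinIdem BM) {J : Finset ι} {δ : ι → ι → ℝ} {z : ι → BM}
    (hz : z ∈ SbarJ J δ) : (fun i => P.proj (z i)) ∈ sat (LP P) J δ := by
  obtain ⟨y, hy, e⟩ := hz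
  exact ⟨fun i => P.proj (y i), Sbar_sandwich hy _ _, fun j hj => by simp only [e j hj]⟩

lemma val_mem_SbarJ (P : MinIdem BM) {J : Finset ι} {δ : ι → ι → ℝ} {z : ι → P.H}
    (hz : z ∈ sat (LP P) J δ) : (fun i => (z i).1) ∈ SbarJ J δ := by
  obtain ⟨y, hy, e⟩ := hz
  exact ⟨_, hy, fun j hj => by simp only [e j hj]⟩

/-- the setup given by a minimal idempotent -/
noncomputable def setup (P : MinIdem BM) (δA : ι → ι → ℝ) : Setup ι P.H δA where
  L := LP P
  x := fun a => P.proj (pure (FreeMonoid.of a))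
  mul_mem := fun hy hy' => Sbar_mul hy hy'
  const_mem := fun h => Sbar_const h.1
  letter_mem := by
    intro w
    have h : (fun i => (pure (FreeMonoid.of (w i)) : BM)) ∈ Sbar (degc w) :=
      subset_closure ⟨[w], by simp, rfl⟩
    exact Sbar_sandwich h _ _
  inv_mem := by
    intro J y hy
    let Z : Set (ι → BM) := ⋂ t : {t : ℝ // 0 < t}, SbarJ J (t.1 • δA)
    have hZc : IsClosed Z := isClosed_iInter fun t => isClosed_SbarJ _ _
    have hZm : ∀ a ∈ Z, ∀ b ∈ Z, a * b ∈ Z := by
      intro a ha b hb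
      refine Set.mem_iInter.mpr fun t => ?_
      have ht := t.2
      have h := SbarJ_mul (Set.mem_iInter.mp ha ⟨t.1 / 2, by positivity⟩)
        (Set.mem_iInter.mp hb ⟨t.1 / 2, by positivity⟩)
      simpa [← add_smul] using h
    have hyZ : (fun i => (y i).1) ∈ Z :=
      Set.mem_iInter.mpr fun t => val_mem_SbarJ P (hy t.1 t.2)
    obtain ⟨_, ⟨z, hz, rfl⟩, he⟩ := exists_idempotent_in_compact_subsemigroup
      continuous_mul_right_pi ((· * (fun i => (y i).1)) '' Z) ⟨_, ⟨_, hyZ, rfl⟩⟩
      (hZc.isCompact.image (continuous_mul_right_pi _)) (by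
        rintro _ ⟨a, ha, rfl⟩ _ ⟨b, hb, rfl⟩
        exact ⟨a * (fun i => (y i).1) * b, hZm _ (hZm _ ha _ hyZ) _ hb, mul_assoc _ _ _⟩)
    have hinv : y⁻¹ = fun i => P.proj (z i) := by
      ext1 i
      symm
      rw [Pi.inv_apply, eq_inv_iff_mul_eq_one]
      apply Subtype.ext
      have h1 : P.p * (z i * (y i).1) = P.p :=
        P.mul_idem (congrFun he i) (by rw [mul_assoc, (y i).2.2])
      change P.p * z i * P.p * (y i).1 = P.p
      rw [mul_assoc, (y i).2.1, mul_assoc, h1]
    intro t ht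
    rw [hinv]
    exact proj_mem_sat P (Set.mem_iInter.mp hz ⟨t, ht⟩)
  fip := by
    classical
    intro J K g h
    have hc : IsClosed {z : ι → BM | ∀ k ∈ K, z k = (g k).1} := by
      simp only [Set.ofPred_forall]
      exact isClosed_iInter fun k => isClosed_iInter fun _ =>
        isClosed_eq (continuous_apply k) continuous_const
    obtain ⟨z, hz1, hz2⟩ := hc.isCompact.inter_iInter_nonempty
      (fun t : {t : ℝ // 0 < t} => SbarJ J (t.1 • δA)) (fun t => isClosed_SbarJ _ _) (by
        intro T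
        obtain ⟨y, hy1, hy2⟩ := h (T.image Subtype.val) (by
          intro t ht
          obtain ⟨s, -, rfl⟩ := Finset.mem_image.mp ht
          exact s.2)
        refine ⟨fun i => (y i).1, fun k hk => by simp only [hy2 k hk], ?_⟩
        simp only [Set.mem_iInter]
        intro t ht
        exact val_mem_SbarJ P (hy1 t.1 (Finset.mem_image_of_mem _ ht)))
    refine ⟨fun i => P.proj (z i), fun t ht =>
      proj_mem_sat P (Set.mem_iInter.mp hz2 ⟨t, ht⟩), fun k hk => ?_⟩
    change P.proj (z k) = g k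
    rw [hz1 k hk, P.proj_val]

/-- The combinatorial Ramsey theorem on words. -/
theorem words_ramsey [Fintype ι] [DecidableEq ι] (A : List (ι → ℝ))
    (hinj : ∀ i j, i ≠ j → ∃ w ∈ A, w i ≠ w j) (habr : ABR (deg A))
    {κ : Type*} [Finite κ] (c : List ℝ → κ) :
    ∃ U : List (ι → ℝ), deg U = deg A ∧ ∃ k, ∀ i, c (U.map (· i)) = k := by
  obtain ⟨P⟩ := exists_minIdem (B := BM) Ultrafilter.continuous_mul_left
  obtain ⟨y, hy, e⟩ := (setup P (deg A)).R_all rfl hinj habr Finset.univ 1 one_pos
  have hy1 : y = 1 := funext fun i => (e i (Finset.mem_univ i)).symm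
  subst hy1
  rw [one_smul] at hy
  have hP : (fun _ : ι => P.p) ∈ Sbar (deg A) := hy
  obtain ⟨k, hk⟩ : ∃ k, {m : FreeMonoid ℝ | c (FreeMonoid.toList m) = k} ∈ P.p := by
    have h := (Ultrafilter.finite_biUnion_mem_iff (f := P.p) (is := (Set.univ : Set κ))
      (s := fun k => {m : FreeMonoid ℝ | c (FreeMonoid.toList m) = k}) Set.finite_univ).mp (by
        have : (⋃ k ∈ (Set.univ : Set κ), {m : FreeMonoid ℝ | c (FreeMonoid.toList m) = k}) =
            Set.univ := by
          ext m; simp
        rw [this]; exact Filter.univ_mem)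
    obtain ⟨k, -, hk⟩ := h
    exact ⟨k, hk⟩
  have ho : IsOpen {z : ι → BM | ∀ i, {m : FreeMonoid ℝ | c (FreeMonoid.toList m) = k} ∈ z i} := by
    simp only [Set.ofPred_forall]
    refine isOpen_iInter_of_finite fun i => ?_
    have hc : Continuous (fun z : ι → BM => z i) := continuous_apply i
    exact (ultrafilter_isOpen_basic {m : FreeMonoid ℝ | c (FreeMonoid.toList m) = k}).preimage hc
  obtain ⟨_, hz, U, hU, rfl⟩ := mem_closure_iff.mp hP _ ho (fun _ => hk)
  exact ⟨U, hU, k, fun i => by simpa [row] using hz i⟩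

end Vale.Agent.P058
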