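import Vale.Agent.P058.Defs
import Vale.Agent.P058.Ultra

/-!
From the big ratio condition to the Ramsey property, and the subtransitive case.
-/

namespace Vale.Agent.P058

variable {ι : Type*}

lemma sum_getD (U : List (ι → ℝ)) (i j : ι) (N : ℕ) (hN : U.length ≤ N) :
    ∑ k ∈ Finset.range N, ((U.map (· i)).getD k 0 - (U.map (· j)).getD k 0) ^ 2 = deg U i j := by
  induction U generalizing N with
  | nil => simp
  | cons w U ih =>
    obtain ⟨N, rfl⟩ : ∃ M, N = M + 1 := ⟨N - 1, by simp at hN; omega⟩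
    rw [Finset.sum_range_succ', deg_cons]
    simp only [List.map_cons, List.getD_cons_succ, List.getD_cons_zero]
    rw [ih N (by simpa using hN)]
    simp [degc, add_comm]

lemma deg_ofFn {n : ℕ} (w : Fin n → ι → ℝ) (i j : ι) :
    deg (List.ofFn w) i j = ∑ k, (w k i - w k j) ^ 2 := by
  rw [deg, List.map_ofFn, List.sum_ofFn]
  simp [Finset.sum_apply, degc]

/-- squared distances of the points of `A` -/
noncomputable def sqd {d : ℕ} (A : Finset (EuclideanSpace ℝ (Fin d))) : A → A → ℝ :=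
  fun i j => dist (i : EuclideanSpace ℝ (Fin d)) j ^ 2

/-- the coordinate columns of `A` -/
def coords {d : ℕ} (A : Finset (EuclideanSpace ℝ (Fin d))) : List (A → ℝ) :=
  List.ofFn (fun (k : Fin d) (i : A) => (i : EuclideanSpace ℝ (Fin d)) k)

lemma dist_sq_eq {d : ℕ} (x y : EuclideanSpace ℝ (Fin d)) :
    dist x y ^ 2 = ∑ k, (x k - y k) ^ 2 := by
  rw [EuclideanSpace.dist_eq, Real.sq_sqrt (by positivity)]
  simp [Real.dist_eq]

lemma deg_coords {d : ℕ} (A : Finset (EuclideanSpace ℝ (Fin d))) : deg (coords A) = sqd A := by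
  ext i j
  rw [coords, deg_ofFn, sqd, dist_sq_eq]

theorem isRamsey_of_abr {d : ℕ} (A : Finset (EuclideanSpace ℝ (Fin d))) (habr : ABR (sqd A)) :
    IsRamsey A := by
  classical
  intro r _
  by_contra hcon
  push Not at hcon
  choose c hc using fun D : ℕ => hcon (D + 1) (Nat.le_add_left _ _)
  let c' : ℕ → List ℝ → Fin r := fun D l =>
    c D (WithLp.toLp 2 fun k : Fin (D + 1) => l.getD k 0)
  obtain ⟨U, hU, k, hk⟩ := words_ramsey (coords A) (by
      intro i j hij
      by_contra h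
      push Not at h
      apply hij
      ext k
      exact h _ (List.mem_ofFn.mpr ⟨k, rfl⟩)) (by rwa [deg_coords]) (fun l => c' l.length l)
  let f : EuclideanSpace ℝ (Fin d) → EuclideanSpace ℝ (Fin (U.length + 1)) := fun x =>
    if hx : x ∈ A then WithLp.toLp 2 fun k : Fin (U.length + 1) => (U.map (· ⟨x, hx⟩)).getD k 0
    else 0
  obtain ⟨x, hx, hx'⟩ := hc U.length f (by
    intro x hx y hy
    rw [← sq_eq_sq₀ dist_nonneg dist_nonneg, dist_sq_eq]
    have h1 := sum_getD U ⟨x, hx⟩ ⟨y, hy⟩ (U.length + 1) (Nat.le_succ _)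
    rw [hU, deg_coords, sqd, ← Fin.sum_univ_eq_sum_range
      (fun k => ((U.map (· ⟨x, hx⟩)).getD k 0 - (U.map (· ⟨y, hy⟩)).getD k 0) ^ 2)] at h1
    rw [← h1]
    simp [f, hx, hy]) k
  apply hx'
  have h2 := hk ⟨x, hx⟩
  simp only [List.length_map] at h2
  simpa [f, hx, c'] using h2

lemma deg_toList_map {α : Type*} (s : Finset α) (w : α → ι → ℝ) (i j : ι) :
    deg (s.toList.map w) i j = ∑ a ∈ s, (w a i - w a j) ^ 2 := by
  rw [deg, List.map_map, Finset.sum_map_toList]
  simp [Finset.sum_apply, degc]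

lemma perm_toList_map {α β : Type*} [Fintype α] (e : α ≃ α) (F : α → β) :
    ((Finset.univ : Finset α).toList.map (F ∘ e)).Perm (Finset.univ.toList.map F) := by
  rw [← Multiset.coe_eq_coe, ← Multiset.map_coe, ← Multiset.map_coe, Finset.coe_toList,
    ← Multiset.map_map, Multiset.map_univ_val_equiv]

/-- distance preserving permutations of a finite set -/
def isoPerm {n : ℕ} (X : Finset (EuclideanSpace ℝ (Fin n))) : Subgroup (Equiv.Perm X) where
  carrier := {σ | ∀ a b : X, dist (σ a : EuclideanSpace ℝ (Fin n)) (σ b) =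
    dist (a : EuclideanSpace ℝ (Fin n)) b}
  one_mem' := fun _ _ => rfl
  mul_mem' := by
    intro σ τ hσ hτ a b
    rw [Equiv.Perm.mul_apply, Equiv.Perm.mul_apply, hσ, hτ]
  inv_mem' := by
    intro σ hσ a b
    rw [← hσ]; simp

lemma IsTransitive.exists_perm {n : ℕ} {X : Finset (EuclideanSpace ℝ (Fin n))}
    (hX : IsTransitive X) (x y : X) : ∃ σ : isoPerm X, σ.1 x = y := by
  obtain ⟨g, hg, hxy⟩ := hX x x.2 y y.2
  have hmem : ∀ a, a ∈ X ↔ g a ∈ X := by
    intro a
    constructor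
    · intro ha
      have : g a ∈ g '' (X : Set _) := Set.mem_image_of_mem _ ha
      rwa [hg] at this
    · intro ha
      have : g a ∈ g '' (X : Set _) := by rw [hg]; exact ha
      obtain ⟨b, hb, hab⟩ := this
      rw [← g.injective hab]; exact hb
  refine ⟨⟨g.toEquiv.subtypeEquiv hmem, fun a b => g.dist_eq _ _⟩, Subtype.ext hxy⟩

/-- A subtransitive set has a balanced family of columns. -/
lemma IsSubtransitive.exists_balanced {d : ℕ} {A : Finset (EuclideanSpace ℝ (Fin d))}
    (h : IsSubtransitive A) :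
    ∃ (U : List (A → ℝ)) (s : ℝ), 0 < s ∧ deg U = s • sqd A ∧
      ∀ i j, (U.map (· i)).Perm (U.map (· j)) := by
  classical
  obtain ⟨n, X, hX, f, hf, hfX⟩ := h
  let G := isoPerm X
  let w : G × Fin n → A → ℝ := fun σk i =>
    (σk.1.1 ⟨f i, hfX i i.2⟩ : EuclideanSpace ℝ (Fin n)) σk.2
  refine ⟨Finset.univ.toList.map w, Fintype.card G, by exact_mod_cast Fintype.card_pos, ?_, ?_⟩
  · ext i j
    rw [deg_toList_map, Fintype.sum_prod_type]
    have : ∀ σ : G, ∑ k, (w (σ, k) i - w (σ, k) j) ^ 2 = sqd A i j := by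
      intro σ
      simp only [w]
      rw [← dist_sq_eq, σ.2, sqd, hf i i.2 j j.2]
    simp [this]
  · intro i j
    obtain ⟨τ, hτ⟩ := hX.exists_perm ⟨f j, hfX j j.2⟩ ⟨f i, hfX i i.2⟩
    rw [List.map_map, List.map_map]
    have h1 := perm_toList_map ((Equiv.mulRight τ).prodCongr (Equiv.refl (Fin n)))
      ((fun v : A → ℝ => v j) ∘ w)
    convert h1 using 2
    ext ⟨σ, k⟩
    simp [w, hτ]

theorem IsSubtransitive.isRamsey {d : ℕ} {A : Finset (EuclideanSpace ℝ (Fin d))}
    (hA : A.Nonempty) (h : IsSubtransitive A) : IsRamsey A := by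
  obtain ⟨U, s, hs, hU, hp⟩ := h.exists_balanced
  obtain ⟨x, hx⟩ := hA
  apply isRamsey_of_abr
  intro ρ hρ
  refine ⟨U, U.map (fun w _ => w ⟨x, hx⟩), s, 0, hs, le_rfl, by positivity, hU, ?_, fun i => ?_⟩
  · rw [zero_smul]
    clear hU hp
    induction U with
    | nil => simp
    | cons w U ih =>
      rw [List.map_cons, deg_cons, ih]
      ext i j; simp [degc]
  · rw [List.map_map]
    exact hp i ⟨x, hx⟩

end Vale.Agent.P058
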