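import Mathlib.NumberTheory.Transcendental.Liouville.LiouvilleNumber
import Mathlib.RingTheory.PowerSeries.Inverse
import Mathlib.RingTheory.PowerSeries.NoZeroDivisors
import Mathlib.Geometry.Euclidean.Sphere.Basic
import Mathlib.Algebra.Algebra.Hom.Rat
import Vale.Agent.P058.Nec
import Vale.Agent.P058.Suff

/-!
Eight points on a circle that do not form a Ramsey set.
-/

namespace Vale.Agent.P058

open scoped TensorProduct

lemma exists_deformation : ∃ (F : Subfield ℝ) (t : F) (σ : F →+* PowerSeries ℝ),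
    (∀ a, PowerSeries.constantCoeff (σ a) = a) ∧ σ t = PowerSeries.C (t : ℝ) + PowerSeries.X := by
  set t := liouvilleNumber ((2 : ℕ) : ℝ) with ht
  have htr : Transcendental ℤ t := transcendental_liouvilleNumber le_rfl
  have hinj := transcendental_iff_injective.mp htr
  let K := FractionRing (Polynomial ℤ)
  let φ0 : Polynomial ℤ →+* ℝ := (Polynomial.aeval t).toRingHom
  let g : Polynomial ℤ →+* PowerSeries ℝ :=
    (Polynomial.aeval (PowerSeries.C t + PowerSeries.X : PowerSeries ℝ)).toRingHom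
  have hg : (PowerSeries.constantCoeff : PowerSeries ℝ →+* ℝ).comp g = φ0 := by
    apply Polynomial.ringHom_ext'
    · exact RingHom.ext_int _ _
    · simp [g, φ0]
  have hu : ∀ y : nonZeroDivisors (Polynomial ℤ), IsUnit (g y) := by
    intro y
    rw [PowerSeries.isUnit_iff_constantCoeff, isUnit_iff_ne_zero]
    have h1 : PowerSeries.constantCoeff (g y) = φ0 y := RingHom.congr_fun hg y
    rw [h1]
    exact (map_ne_zero_iff _ hinj).mpr (nonZeroDivisors.ne_zero y.2)
  let σ0 : K →+* PowerSeries ℝ := IsLocalization.lift hu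
  let φ : K →+* ℝ := (PowerSeries.constantCoeff : PowerSeries ℝ →+* ℝ).comp σ0
  refine ⟨φ.fieldRange, φ.rangeRestrictFieldEquiv (algebraMap (Polynomial ℤ) K Polynomial.X),
    σ0.comp φ.rangeRestrictFieldEquiv.symm.toRingHom, fun a => ?_, ?_⟩
  · exact φ.rangeRestrictFieldEquiv_apply_symm_apply a
  · have h1 : σ0 (algebraMap (Polynomial ℤ) K Polynomial.X) = PowerSeries.C t + PowerSeries.X := by
      rw [IsLocalization.lift_eq]; simp [g]
    have h2 : φ (algebraMap (Polynomial ℤ) K Polynomial.X) = t := by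
      simp [φ, h1]
    simp [h1, h2]

theorem exists_eight : ∃ A : Finset (EuclideanSpace ℝ (Fin 2)), A.card ≤ 8 ∧
    EuclideanGeometry.Cospherical (A : Set (EuclideanSpace ℝ (Fin 2))) ∧ ¬ IsRamsey A := by
  classical
  obtain ⟨F, t, σ, hσ, hσt⟩ := exists_deformation
  have ht2 : (1 : F) + t ^ 2 ≠ 0 := by
    intro h
    have : (1 : ℝ) + (t : ℝ) ^ 2 = 0 := by exact_mod_cast congrArg Subtype.val h
    nlinarith [sq_nonneg (t : ℝ)]
  obtain ⟨x, hx⟩ : ∃ x : F, x * (1 + t ^ 2) = 1 - t ^ 2 := ⟨_, div_mul_cancel₀ _ ht2⟩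
  obtain ⟨y, hy⟩ : ∃ y : F, y * (1 + t ^ 2) = 2 * t := ⟨_, div_mul_cancel₀ _ ht2⟩
  have hxy : x ^ 2 + y ^ 2 = 1 := by
    apply mul_right_cancel₀ (pow_ne_zero 2 ht2)
    linear_combination (x * (1 + t ^ 2) + (1 - t ^ 2)) * hx + (y * (1 + t ^ 2) + 2 * t) * hy
  let pt : F → F → EuclideanSpace ℝ (Fin 2) := fun a b => !₂[(a : ℝ), (b : ℝ)]
  let A : Finset (EuclideanSpace ℝ (Fin 2)) :=
    {pt 1 0, pt (-1) 0, pt 0 1, pt 0 (-1), pt x y, pt (-x) y, pt x (-y), pt (-x) (-y)}
  have hmem : ∀ p ∈ A, ∃ a b : F, a ^ 2 + b ^ 2 = 1 ∧ p = pt a b := by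
    intro p hp
    simp only [A, Finset.mem_insert, Finset.mem_singleton] at hp
    rcases hp with rfl | rfl | rfl | rfl | rfl | rfl | rfl | rfl <;>
      exact ⟨_, _, by simp [hxy], rfl⟩
  refine ⟨A, ?_, ⟨0, 1, fun p hp => ?_⟩, fun hR => ?_⟩
  · iterate 7 refine (Finset.card_insert_le _ _).trans (Nat.succ_le_succ ?_)
    exact (Finset.card_singleton _).le
  · obtain ⟨a, b, hab, rfl⟩ := hmem p hp
    rw [← sq_eq_sq₀ dist_nonneg zero_le_one, dist_sq_eq]
    have : (a : ℝ) ^ 2 + (b : ℝ) ^ 2 = 1 := by exact_mod_cast congrArg Subtype.val hab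
    simpa [pt, Fin.sum_univ_two] using this
  obtain ⟨P, h1, h2⟩ := hR.tensorCriterion (F := F) ⟨pt 1 0, by simp [A]⟩ (by
    intro p hp k
    obtain ⟨a, b, -, rfl⟩ := hmem p hp
    fin_cases k
    · exact a.2
    · exact b.2)
  let c : F →+* PowerSeries ℝ := PowerSeries.C.comp F.subtype
  let Ψ : F ⊗[ℚ] F →ₐ[ℚ] PowerSeries ℝ :=
    Algebra.TensorProduct.lift c.toRatAlgHom σ.toRatAlgHom (fun _ _ => Commute.all _ _)
  have hΨ : ∀ a b : F, Ψ (a ⊗ₜ b) = c a * σ b := fun a b => by simp [Ψ]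
  have hΨm : ∀ τ, PowerSeries.constantCoeff (Ψ τ) =
      ((Algebra.TensorProduct.lmul' ℚ τ : F) : ℝ) := by
    intro τ
    induction τ using TensorProduct.induction_on with
    | zero => simp
    | add a b ha hb => simp [ha, hb]
    | tmul a b => simp [hΨ, hσ, c]
  have heq : ∀ a b : F, pt a b ∈ A →
      Ψ (P 0 0) + Ψ (P 0 1) * σ a + Ψ (P 0 2) * σ b +
      c a * (Ψ (P 1 0) + Ψ (P 1 1) * σ a + Ψ (P 1 2) * σ b) +
      c b * (Ψ (P 2 0) + Ψ (P 2 1) * σ a + Ψ (P 2 2) * σ b) = 0 := by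
    intro a b hab
    have h3' : ∑ α : Fin 3, ∑ β : Fin 3, ((![1, a, b] : Fin 3 → F) α ⊗ₜ[ℚ] (1 : F)) * P α β *
        ((1 : F) ⊗ₜ[ℚ] (![1, a, b] : Fin 3 → F) β) = 0 := h1 _ hab ![1, a, b] rfl (by
      intro k; fin_cases k <;> simp [pt])
    have h3 := congrArg Ψ h3'
    simp only [Fin.sum_univ_three, map_add, map_mul, hΨ, map_zero, map_one, Matrix.cons_val_zero,
      Matrix.cons_val_one, Matrix.cons_val] at h3
    linear_combination h3
  have e1 := heq 1 0 (by simp [A])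
  have e2 := heq (-1) 0 (by simp [A])
  have e3 := heq 0 1 (by simp [A])
  have e4 := heq 0 (-1) (by simp [A])
  have e5 := heq x y (by simp [A])
  have e6 := heq (-x) y (by simp [A])
  have e7 := heq x (-y) (by simp [A])
  have e8 := heq (-x) (-y) (by simp [A])
  simp only [map_neg, map_one, map_zero] at e1 e2 e3 e4 e5 e6 e7 e8
  have hx1 := congrArg c hx
  have hx2 := congrArg σ hx
  have hy1 := congrArg c hy
  have hy2 := congrArg σ hy
  have hct : c t = PowerSeries.C (t : ℝ) := rfl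
  simp only [map_mul, map_add, map_sub, map_one, map_pow, map_ofNat, hσt, hct] at hx1 hx2 hy1 hy2
  have hfour : (4 : PowerSeries ℝ) * (Ψ (P 1 1) * (c x * σ x + c y * σ y - 1)) = 0 := by
    linear_combination e5 + e6 + e7 + e8 - 2 * (e1 + e2) +
      2 * (c y * σ y) * ((e1 + e2) - (e3 + e4))
  have hX : (c x * σ x + c y * σ y - 1) * ((1 + PowerSeries.C (t : ℝ) ^ 2) *
      (1 + (PowerSeries.C (t : ℝ) + PowerSeries.X) ^ 2)) = -2 * PowerSeries.X ^ 2 := by
    linear_combination (σ x * (1 + (PowerSeries.C (t : ℝ) + PowerSeries.X) ^ 2)) * hx1 +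
      (1 - PowerSeries.C (t : ℝ) ^ 2) * hx2 +
      (σ y * (1 + (PowerSeries.C (t : ℝ) + PowerSeries.X) ^ 2)) * hy1 +
      (2 * PowerSeries.C (t : ℝ)) * hy2
  have h4 : (4 : PowerSeries ℝ) ≠ 0 := by
    intro h
    have := congrArg (PowerSeries.constantCoeff (R := ℝ)) h
    rw [map_ofNat, map_zero] at this
    norm_num at this
  have h2' : (-2 : PowerSeries ℝ) ≠ 0 := by
    intro h
    have := congrArg (PowerSeries.constantCoeff (R := ℝ)) h
    rw [map_neg, map_ofNat, map_zero] at this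
    norm_num at this
  have h11 : Ψ (P 1 1) ≠ 0 := by
    intro h
    have h5 := hΨm (P 1 1)
    have h6 := h2 0 0
    rw [if_pos rfl] at h6
    have h7 : Algebra.TensorProduct.lmul' ℚ (P 1 1) = (1 : F) := h6
    rw [h, h7] at h5
    simp at h5
  have h8 := (mul_eq_zero.mp ((mul_eq_zero.mp hfour).resolve_left h4)).resolve_left h11
  rw [h8, zero_mul] at hX
  exact mul_ne_zero h2' (pow_ne_zero 2 PowerSeries.X_ne_zero) hX.symm

end Vale.Agent.P058
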