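import Mathlib.Algebra.Algebra.Hom.Rat
import Vale.Agent.P058.Abel
import Vale.Agent.P058.Suff

/-!
The tensor criterion implies the big ratio condition, hence the Ramsey property.
-/

namespace Vale.Agent.P058

open scoped TensorProduct

/-- the quotient map modulo the cube of the augmentation ideal -/
noncomputable abbrev mk3 : GR →+* GR ⧸ aug ^ 3 := Ideal.Quotient.mk (aug ^ 3)

lemma cube_mem (x y z : ℝ) : (eb x - 1) * (eb y - 1) * (eb z - 1) ∈ aug ^ 3 := by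
  rw [pow_succ, pow_two]
  exact Ideal.mul_mem_mul (Ideal.mul_mem_mul (eb_sub_one_mem _) (eb_sub_one_mem _))
    (eb_sub_one_mem _)

/-- the biadditive map `(x, y) ↦ (e x - 1) (e y - 1)` -/
noncomputable def bil : ℝ →+ ℝ →+ GR ⧸ aug ^ 3 :=
  AddMonoidHom.mk' (fun x => AddMonoidHom.mk' (fun y => mk3 ((eb x - 1) * (eb y - 1))) (by
    intro y y'
    rw [← map_add, Ideal.Quotient.eq]
    convert cube_mem x y y' using 1
    rw [eb_add]; ring)) (by
    intro x x'
    ext y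
    simp only [AddMonoidHom.mk'_apply, AddMonoidHom.add_apply]
    rw [← map_add, Ideal.Quotient.eq]
    convert cube_mem x x' y using 1
    rw [eb_add]; ring)

lemma bil_apply (x y : ℝ) : bil x y = mk3 ((eb x - 1) * (eb y - 1)) := rfl

lemma bil_balanced (q : ℚ) (x y : ℝ) : bil (q • x) y = bil x (q • y) := by
  have hd : (q.den : ℝ) ≠ 0 := by exact_mod_cast q.den_ne_zero
  have hq : (q : ℝ) = q.num / q.den := by exact_mod_cast (Rat.num_div_den q).symm
  have e1 : q • x = q.num • (x / q.den) := by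
    rw [Rat.smul_def, zsmul_eq_mul, hq]; field_simp
  have e2 : y = q.den • (y / q.den) := by rw [nsmul_eq_mul]; field_simp
  have e3 : x = q.den • (x / q.den) := by rw [nsmul_eq_mul]; field_simp
  have e4 : q • y = q.num • (y / q.den) := by
    rw [Rat.smul_def, zsmul_eq_mul, hq]; field_simp
  rw [e1, e4]
  generalize x / q.den = x' at *
  generalize y / q.den = y' at *
  rw [e2, e3]
  simp only [map_zsmul, map_nsmul, AddMonoidHom.zsmul_apply, AddMonoidHom.nsmul_apply]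
  rw [smul_comm]

/-- the induced additive map on the tensor square -/
noncomputable def Bt : ℝ ⊗[ℚ] ℝ →+ GR ⧸ aug ^ 3 := TensorProduct.liftAddHom bil bil_balanced

lemma Bt_tmul (x y : ℝ) : Bt (x ⊗ₜ y) = mk3 ((eb x - 1) * (eb y - 1)) := rfl

variable {ι : Type*}

/-- the polarized squared distance matrix -/
def cross (u v : ι → ℝ) : ι → ι → ℝ := fun i j => 2 * (u i - u j) * (v i - v j)

/-- representation of a tuple of tensors with negative part of cost at most `ε` -/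
def Rep (δ : ι → ι → ℝ) (ε : ℝ) (ω : ι → ℝ ⊗[ℚ] ℝ) (γ : ι → ι → ℝ) : Prop :=
  ∃ (U V : List (ι → ℝ)) (C : ℝ), 0 ≤ C ∧ C ≤ ε ∧ deg V = C • δ ∧ deg U = C • δ + γ ∧
    ∀ i, mk3 (mar U i - mar V i) = Bt (ω i)

lemma Rep.add {δ : ι → ι → ℝ} {ε ε' : ℝ} {ω ω' : ι → ℝ ⊗[ℚ] ℝ} {γ γ' : ι → ι → ℝ}
    (h : Rep δ ε ω γ) (h' : Rep δ ε' ω' γ') : Rep δ (ε + ε') (ω + ω') (γ + γ') := by
  obtain ⟨U, V, C, h0, h1, h2, h3, h4⟩ := h
  obtain ⟨U', V', C', h0', h1', h2', h3', h4'⟩ := h'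
  refine ⟨U ++ U', V ++ V', C + C', by positivity, by linarith, ?_, ?_, fun i => ?_⟩
  · rw [deg_append, h2, h2', add_smul]
  · rw [deg_append, h3, h3', add_smul]; abel
  · rw [Pi.add_apply, map_add, ← h4, ← h4', ← map_add, mar_append, mar_append]
    congr 1
    simp only [Pi.add_apply]; ring

lemma Rep.mono {δ : ι → ι → ℝ} {ε ε' : ℝ} {ω : ι → ℝ ⊗[ℚ] ℝ} {γ : ι → ι → ℝ}
    (h : Rep δ ε ω γ) (hε : ε ≤ ε') : Rep δ ε' ω γ := by
  obtain ⟨U, V, C, h0, h1, h2⟩ := h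
  exact ⟨U, V, C, h0, h1.trans hε, h2⟩

/-- completion with explicit cost -/
def PadC (δ : ι → ι → ℝ) (w : ι → ℝ) (C : ℝ) : Prop :=
  0 ≤ C ∧ ∃ P : List (ι → ℝ), degc w + deg P = C • δ

lemma PadC.smul {δ : ι → ι → ℝ} {w : ι → ℝ} {C : ℝ} (h : PadC δ w C) (c : ℝ) :
    PadC δ (c • w) (c ^ 2 * C) := by
  obtain ⟨hC, P, h⟩ := h
  refine ⟨by positivity, P.map (fun w => c • w), ?_⟩
  rw [deg_map_smul, mul_smul, ← h, smul_add]
  congr 1
  ext i j; simp [degc]; ring

lemma rep_pair {δ : ι → ι → ℝ} {u v : ι → ℝ} {Cu Cv : ℝ} (hu : PadC δ u Cu) (hv : PadC δ v Cv) :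
    Rep δ (Cu + Cv) (fun i => u i ⊗ₜ v i) (cross u v) := by
  obtain ⟨h0, P, hP⟩ := hu
  obtain ⟨h0', P', hP'⟩ := hv
  refine ⟨(u + v) :: 0 :: (P ++ P'), u :: v :: (P ++ P'), Cu + Cv, by positivity, le_rfl, ?_, ?_,
    fun i => ?_⟩
  · rw [deg_cons, deg_cons, deg_append, add_smul, ← hP, ← hP']; abel
  · rw [deg_cons, deg_cons, deg_append, add_smul, ← hP, ← hP']
    ext i j
    simp [degc, cross]; ring
  · rw [Bt_tmul]
    congr 1
    simp [eb_add, eb_zero]; ring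

lemma rep_diag (δ : ι → ι → ℝ) (u : ι → ℝ) :
    Rep δ 0 (fun i => u i ⊗ₜ u i) (cross u u) := by
  refine ⟨[u, -u], [0, 0], 0, le_rfl, le_rfl, ?_, ?_, fun i => ?_⟩
  · ext i j; simp [degc]
  · ext i j; simp [degc, cross]; ring
  · rw [Bt_tmul, Ideal.Quotient.eq]
    have h : eb (u i) * eb (-u i) = 1 := by rw [← eb_add]; simp [eb_zero]
    convert cube_mem (u i) (u i) (-u i) using 1
    simp only [mar_cons, mar_nil, Pi.add_apply, Pi.neg_apply, Pi.zero_apply, eb_zero]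
    linear_combination (2 - eb (u i)) * h

/-- representable with arbitrarily small cost -/
def Small (δ : ι → ι → ℝ) : AddSubmonoid ((ι → ℝ ⊗[ℚ] ℝ) × (ι → ι → ℝ)) where
  carrier := {z | ∀ ε : ℝ, 0 < ε → Rep δ ε z.1 z.2}
  zero_mem' := fun ε hε => ⟨[], [], 0, le_rfl, hε.le, by simp, by simp, by simp⟩
  add_mem' := by
    intro z z' h h' ε hε
    have := (h (ε / 2) (by positivity)).add (h' (ε / 2) (by positivity))
    simpa using this

/-- the tuple of tensors attached to one matrix entry -/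
noncomputable def om (u v : ι → ℝ) : ℝ ⊗[ℚ] ℝ →+ (ι → ℝ ⊗[ℚ] ℝ) where
  toFun τ := fun i => (u i ⊗ₜ[ℚ] (1 : ℝ)) * τ * ((1 : ℝ) ⊗ₜ[ℚ] v i)
  map_zero' := by ext1 i; simp
  map_add' := by intro a b; ext1 i; simp [mul_add, add_mul]

lemma om_tmul (u v : ι → ℝ) (x y : ℝ) :
    om u v (x ⊗ₜ y) = fun i => (x * u i) ⊗ₜ[ℚ] (y * v i) := by
  ext1 i
  simp [om, mul_comm]

lemma exists_nat_sq_lt (a : ℝ) {ε : ℝ} (hε : 0 < ε) :
    ∃ R : ℕ, 0 < R ∧ ((R : ℝ)⁻¹) ^ 2 * a ≤ ε := by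
  obtain ⟨R, hR⟩ := exists_nat_gt (max (a / ε) 1)
  have h1 : (1 : ℝ) < R := lt_of_le_of_lt (le_max_right _ _) hR
  have h2 : a / ε < R := lt_of_le_of_lt (le_max_left _ _) hR
  refine ⟨R, by exact_mod_cast (show (0 : ℝ) < R by linarith), ?_⟩
  rw [div_lt_iff₀ hε] at h2
  rw [inv_pow, inv_mul_le_iff₀ (by positivity)]
  have h3 : 0 < (R : ℝ) * ε := by positivity
  nlinarith

lemma tmul_move (R : ℕ) (hR : 0 < R) (a b : ℝ) :
    a ⊗ₜ[ℚ] b = ((R : ℝ)⁻¹ * a) ⊗ₜ[ℚ] ((R : ℝ) * b) := by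
  have h1 : (R : ℝ) * b = (R : ℚ) • b := by simp [Rat.smul_def]
  have hR' : (R : ℝ) ≠ 0 := by positivity
  rw [h1, ← TensorProduct.smul_tmul]
  congr 1
  simp [Rat.smul_def, hR']

lemma tmul_move' (R : ℕ) (hR : 0 < R) (a b : ℝ) :
    a ⊗ₜ[ℚ] b = ((R : ℝ) * a) ⊗ₜ[ℚ] ((R : ℝ)⁻¹ * b) := by
  have h1 : (R : ℝ) * a = (R : ℚ) • a := by simp [Rat.smul_def]
  have hR' : (R : ℝ) ≠ 0 := by positivity
  rw [h1, TensorProduct.smul_tmul]
  congr 1
  simp [Rat.smul_def, hR']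

lemma small_right_const {δ : ι → ι → ℝ} {u : ι → ℝ} {C : ℝ} (hu : PadC δ u C) (τ : ℝ ⊗[ℚ] ℝ) :
    (om u (fun _ => 1) τ, 0) ∈ Small δ := by
  induction τ using TensorProduct.induction_on with
  | zero => rw [map_zero]; exact zero_mem _
  | add a b ha hb => simpa using add_mem ha hb
  | tmul x y =>
    intro ε hε
    obtain ⟨R, hR, hRε⟩ := exists_nat_sq_lt (x ^ 2 * C) hε
    have h0 : PadC δ (fun _ => (R : ℝ) * y) 0 := ⟨le_rfl, [], by ext i j; simp [degc]⟩
    have h := (rep_pair (hu.smul ((R : ℝ)⁻¹ * x)) h0).mono (ε' := ε) (by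
      rw [add_zero, mul_pow, mul_assoc]; exact hRε)
    convert h using 1
    · rw [om_tmul]
      ext1 i
      dsimp only
      rw [tmul_move R hR (x * u i)]
      simp [mul_assoc]
    · ext i j; simp [cross]

lemma small_left_const {δ : ι → ι → ℝ} {v : ι → ℝ} {C : ℝ} (hv : PadC δ v C) (τ : ℝ ⊗[ℚ] ℝ) :
    (om (fun _ => 1) v τ, 0) ∈ Small δ := by
  induction τ using TensorProduct.induction_on with
  | zero => rw [map_zero]; exact zero_mem _
  | add a b ha hb => simpa using add_mem ha hb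
  | tmul x y =>
    intro ε hε
    obtain ⟨R, hR, hRε⟩ := exists_nat_sq_lt (y ^ 2 * C) hε
    have h0 : PadC δ (fun _ => (R : ℝ) * x) 0 := ⟨le_rfl, [], by ext i j; simp [degc]⟩
    have h := (rep_pair h0 (hv.smul ((R : ℝ)⁻¹ * y))).mono (ε' := ε) (by
      rw [zero_add, mul_pow, mul_assoc]; exact hRε)
    convert h using 1
    · rw [om_tmul]
      ext1 i
      dsimp only
      rw [tmul_move' R hR (x * 1)]
      simp [mul_assoc]
    · ext i j; simp [cross]

lemma small_ker {δ : ι → ι → ℝ} {u v : ι → ℝ} (hu : PadC δ u 1) (hv : PadC δ v 1)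
    (τ : ℝ ⊗[ℚ] ℝ) :
    (om u v (τ - (Algebra.TensorProduct.lmul' ℚ τ : ℝ) ⊗ₜ (1 : ℝ)), 0) ∈ Small δ := by
  induction τ using TensorProduct.induction_on with
  | zero =>
    rw [map_zero, TensorProduct.zero_tmul, sub_zero, map_zero]
    exact zero_mem _
  | add a b ha hb =>
    have := add_mem ha hb
    rw [Prod.mk_add_mk, ← map_add, add_zero] at this
    convert this using 3
    rw [map_add, TensorProduct.add_tmul]; abel
  | tmul x y =>
    intro ε hε
    obtain ⟨R, hR, hRε⟩ := exists_nat_sq_lt (x ^ 2 + 1) (ε := ε / 2) (by positivity)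
    have hR' : (0 : ℝ) < R := by exact_mod_cast hR
    obtain ⟨q, hq⟩ : ∃ q : ℚ, (R : ℝ) ^ 2 * (x ^ 2 + 1) * (y - q) ^ 2 ≤ ε / 2 := by
      have hpos : (0 : ℝ) < (R : ℝ) ^ 2 * (x ^ 2 + 1) := by positivity
      obtain ⟨q, hq⟩ := exists_rat_near y
        (Real.sqrt_pos.mpr (show 0 < ε / 2 / ((R : ℝ) ^ 2 * (x ^ 2 + 1)) by positivity))
      refine ⟨q, ?_⟩
      have h1 : (y - q) ^ 2 < ε / 2 / ((R : ℝ) ^ 2 * (x ^ 2 + 1)) := by
        rw [← sq_abs]
        exact (Real.lt_sqrt (abs_nonneg _)).mp hq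
      rw [lt_div_iff₀ hpos] at h1
      linarith
    have h1 := rep_pair (hu.smul ((R : ℝ)⁻¹ * x)) (hv.smul ((R : ℝ) * (y - q)))
    have h2 := rep_pair (hu.smul (-((R : ℝ) * (x * (y - q))))) (hv.smul ((R : ℝ)⁻¹))
    have h := (h1.add h2).mono (ε' := ε) (by nlinarith)
    convert h using 1
    · have e : x ⊗ₜ[ℚ] y - (Algebra.TensorProduct.lmul' ℚ (x ⊗ₜ[ℚ] y) : ℝ) ⊗ₜ[ℚ] (1 : ℝ) =
          x ⊗ₜ[ℚ] (y - q) + (-(x * (y - q))) ⊗ₜ[ℚ] (1 : ℝ) := by
        have e1 : x ⊗ₜ[ℚ] (q : ℝ) = (x * q) ⊗ₜ[ℚ] (1 : ℝ) := by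
          have : (q : ℝ) = q • (1 : ℝ) := by simp [Rat.smul_def]
          rw [this, ← TensorProduct.smul_tmul]
          simp [Rat.smul_def, mul_comm]
        rw [Algebra.TensorProduct.lmul'_apply_tmul, TensorProduct.tmul_sub, e1, mul_sub,
          TensorProduct.neg_tmul, TensorProduct.sub_tmul]
        abel
      rw [e, map_add, om_tmul, om_tmul]
      ext1 i
      simp only [Pi.add_apply, Pi.smul_apply, smul_eq_mul]
      rw [tmul_move R hR (x * u i), tmul_move' R hR (-(x * (y - q)) * u i)]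
      congr 2 <;> ring
    · ext i j
      simp only [cross, Pi.add_apply, Pi.smul_apply, smul_eq_mul, Pi.zero_apply]
      field_simp
      ring

theorem goodI_of_tensor {d : ℕ} (α : Fin d → ι → ℝ)
    (P : Fin (d + 1) → Fin (d + 1) → ℝ ⊗[ℚ] ℝ)
    (h1 : ∀ i, ∑ a, ∑ b, ((Fin.cons (fun _ => 1) α : Fin (d + 1) → ι → ℝ) a i ⊗ₜ[ℚ] (1 : ℝ)) *
      P a b * ((1 : ℝ) ⊗ₜ[ℚ] (Fin.cons (fun _ => 1) α : Fin (d + 1) → ι → ℝ) b i) = 0)
    (h2 : ∀ k l : Fin d,
      Algebra.TensorProduct.lmul' ℚ (P k.succ l.succ) = if k = l then (1 : ℝ) else 0) :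
    GoodI (deg (List.ofFn α)) 3 := by
  classical
  set δ := deg (List.ofFn α) with hδ
  set p : Fin (d + 1) → ι → ℝ := Fin.cons (fun _ => 1) α with hp
  have hpad : ∀ k, PadC δ (α k) 1 := by
    intro k
    have hw : α k ∈ List.ofFn α := List.mem_ofFn.mpr ⟨k, rfl⟩
    refine ⟨zero_le_one, (List.ofFn α).erase (α k), ?_⟩
    rw [one_smul, hδ, deg_perm (List.perm_cons_erase hw), deg_cons]
  have hpad0 : PadC δ (fun _ => 1) 0 := ⟨le_rfl, [], by ext i j; simp [degc]⟩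
  let γ : Fin (d + 1) → Fin (d + 1) → ι → ι → ℝ := fun a b =>
    if a = b then cross (p a) (p a) else 0
  have hs : ∀ a b, (om (p a) (p b) (P a b), γ a b) ∈ Small δ := by
    intro a b
    have hc : cross (p 0) (p 0) = 0 := by ext i j; simp [hp, cross]
    refine Fin.cases ?_ (fun k => ?_) a
    · have hγ : γ 0 b = 0 := by simp only [γ, hc, ite_self]
      rw [hγ]
      refine Fin.cases ?_ (fun l => ?_) b
      · exact small_left_const hpad0 _
      · exact small_left_const (hpad l) _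
    · refine Fin.cases ?_ (fun l => ?_) b
      · have hγ : γ k.succ 0 = 0 := by simp [γ]
        rw [hγ]
        exact small_right_const (hpad k) _
      · have h3 := small_ker (hpad k) (hpad l) (P k.succ l.succ)
        rw [h2] at h3
        by_cases hkl : k = l
        · subst hkl
          have h4 : (om (α k) (α k) ((1 : ℝ) ⊗ₜ (1 : ℝ)), cross (α k) (α k)) ∈ Small δ := by
            intro ε hε
            rw [om_tmul]
            simpa using (rep_diag δ (α k)).mono hε.le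
          have h5 := add_mem h3 h4
          rw [Prod.mk_add_mk, ← map_add] at h5
          simpa [γ, hp] using h5
        · simpa [γ, hp, hkl] using h3
  have hsum := AddSubmonoid.sum_mem (Small δ) (t := Finset.univ) (fun a _ =>
    AddSubmonoid.sum_mem (Small δ) (t := Finset.univ) (fun b _ => hs a b))
  have e1 : (∑ a, ∑ b, (om (p a) (p b) (P a b), γ a b)) = (0, (2 : ℝ) • δ) := by
    apply Prod.ext
    · simp only [Prod.fst_sum]
      ext1 i
      simpa [om, Finset.sum_apply] using h1 i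
    · simp only [Prod.snd_sum, γ, Finset.sum_ite_eq, Finset.mem_univ, if_true]
      ext i j
      rw [Fin.sum_univ_succ]
      simp only [hp, hδ, Fin.cons_zero, Fin.cons_succ, Pi.add_apply, Finset.sum_apply, cross,
        Pi.smul_apply, deg_ofFn, smul_eq_mul, Finset.mul_sum]
      simp only [sub_self, mul_zero, zero_add]
      exact Finset.sum_congr rfl fun k _ => by ring
  rw [e1] at hsum
  intro ρ hρ
  obtain ⟨U, V, C, h0, hC, hV, hU, hm⟩ := hsum ρ hρ
  refine ⟨mar U - mar V, fun i => ?_, U, V, C + 2, C, by positivity, h0, by nlinarith, ?_, hV, rfl⟩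
  · have : mk3 (mar U i - mar V i) = Bt 0 := hm i
    rw [map_zero, Ideal.Quotient.eq_zero_iff_mem] at this
    exact this
  · rw [hU, add_smul]

theorem TensorCriterion.isRamsey {d : ℕ} {F : Subfield ℝ} {A : Finset (EuclideanSpace ℝ (Fin d))}
    (hF : ∀ x ∈ A, ∀ k, x k ∈ F) (h : TensorCriterion F A) : IsRamsey A := by
  classical
  obtain ⟨P, h1, h2⟩ := h
  apply isRamsey_of_abr
  rw [← deg_coords]
  apply abr_of_goodI
  · intro i j hij
    by_contra h
    push Not at h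
    apply hij
    ext k
    exact h _ (List.mem_ofFn.mpr ⟨k, rfl⟩)
  let φ : F →ₐ[ℚ] ℝ := F.subtype.toRatAlgHom
  let Φ : F ⊗[ℚ] F →ₐ[ℚ] ℝ ⊗[ℚ] ℝ := Algebra.TensorProduct.map φ φ
  apply goodI_of_tensor _ (fun a b => Φ (P a b))
  · intro i
    let p : Fin (d + 1) → F := Fin.cons 1 (fun k => ⟨(i : EuclideanSpace ℝ (Fin d)) k, hF i i.2 k⟩)
    have h3 := congrArg Φ (h1 i i.2 p rfl (fun k => rfl))
    simp only [map_sum, map_mul, map_zero, Φ, Algebra.TensorProduct.map_tmul, map_one] at h3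
    have h5 : ∀ a, (Fin.cons (fun _ => 1) (fun (k : Fin d) (i : A) =>
        (i : EuclideanSpace ℝ (Fin d)) k) : Fin (d + 1) → A → ℝ) a i = φ (p a) := by
      intro a
      refine Fin.cases ?_ (fun k => ?_) a
      · simp [p]
      · simp [p, φ]
    simp only [h5]
    exact h3
  · intro k l
    have h4 : ∀ τ : F ⊗[ℚ] F, Algebra.TensorProduct.lmul' ℚ (Φ τ) =
        φ (Algebra.TensorProduct.lmul' ℚ τ) := by
      intro τ
      induction τ using TensorProduct.induction_on with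
      | zero => simp
      | add a b ha hb => simp [ha, hb]
      | tmul x y => simp [Φ]
    rw [h4, h2]
    split_ifs <;> simp

end Vale.Agent.P058
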