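import Mathlib.Geometry.Euclidean.Sphere.Basic
import Mathlib.LinearAlgebra.Dual.Lemmas
import Vale.Agent.P058.Tens

/-!
Spherical sets with at most five points are Ramsey.
-/

namespace Vale.Agent.P058

open scoped TensorProduct

lemma isRamsey_of_real_tensor {d : ℕ} (A : Finset (EuclideanSpace ℝ (Fin d)))
    (P : Fin (d + 1) → Fin (d + 1) → ℝ ⊗[ℚ] ℝ)
    (h1 : ∀ x ∈ A, ∑ a, ∑ b, ((Fin.cons 1 x : Fin (d + 1) → ℝ) a ⊗ₜ[ℚ] (1 : ℝ)) *
      P a b * ((1 : ℝ) ⊗ₜ[ℚ] (Fin.cons 1 x : Fin (d + 1) → ℝ) b) = 0)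
    (h2 : ∀ k l : Fin d,
      Algebra.TensorProduct.lmul' ℚ (P k.succ l.succ) = if k = l then (1 : ℝ) else 0) :
    IsRamsey A := by
  classical
  apply isRamsey_of_abr
  rw [← deg_coords]
  apply abr_of_goodI
  · intro i j hij
    by_contra h
    push Not at h
    apply hij
    ext k
    exact h _ (List.mem_ofFn.mpr ⟨k, rfl⟩)
  apply goodI_of_tensor _ P _ h2
  intro i
  have h5 : ∀ a, (Fin.cons (fun _ => 1) (fun (k : Fin d) (i : A) =>
      (i : EuclideanSpace ℝ (Fin d)) k) : Fin (d + 1) → A → ℝ) a i =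
      (Fin.cons 1 (i : EuclideanSpace ℝ (Fin d)) : Fin (d + 1) → ℝ) a := by
    intro a
    refine Fin.cases ?_ (fun k => ?_) a <;> simp
  simp only [h5]
  exact h1 i i.2

lemma isRamsey_of_two_hyperplanes {d : ℕ} (A : Finset (EuclideanSpace ℝ (Fin d)))
    (hA : EuclideanGeometry.Cospherical (A : Set (EuclideanSpace ℝ (Fin d))))
    (ℓ ℓ' : EuclideanSpace ℝ (Fin d) → Fin (d + 1) → ℝ)
    (h1 : ∀ x ∈ A, ∑ a, ℓ x a * (Fin.cons 1 x : Fin (d + 1) → ℝ) a = 1)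
    (h1' : ∀ x ∈ A, ∑ a, ℓ' x a * (Fin.cons 1 x : Fin (d + 1) → ℝ) a = 1)
    (h0 : ∀ x ∈ A, ∀ y ∈ A, y ≠ x → ∑ a, ℓ x a * (Fin.cons 1 y : Fin (d + 1) → ℝ) a = 0 ∨
      ∑ a, ℓ' x a * (Fin.cons 1 y : Fin (d + 1) → ℝ) a = 0) : IsRamsey A := by
  classical
  obtain ⟨z, ρ, hz⟩ := hA
  let M0 : Fin (d + 1) → Fin (d + 1) → ℝ :=
    Fin.cons (Fin.cons (∑ k, z k ^ 2 - ρ ^ 2) (fun l => -z l))
      (fun k => Fin.cons (-z k) (fun l => if k = l then 1 else 0))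
  let e : EuclideanSpace ℝ (Fin d) → ℝ ⊗[ℚ] ℝ := fun x =>
    ∑ a, ∑ b, ((Fin.cons 1 x : Fin (d + 1) → ℝ) a ⊗ₜ[ℚ] (1 : ℝ)) *
      (M0 a b ⊗ₜ[ℚ] (1 : ℝ)) * ((1 : ℝ) ⊗ₜ[ℚ] (Fin.cons 1 x : Fin (d + 1) → ℝ) b)
  have he : ∀ x ∈ A, Algebra.TensorProduct.lmul' ℚ (e x) = (0 : ℝ) := by
    intro x hx
    have h3 : ∑ k, (x k - z k) ^ 2 = ρ ^ 2 := by rw [← dist_sq_eq, hz x hx]
    simp only [e, map_sum, map_mul, Algebra.TensorProduct.lmul'_apply_tmul, Fin.sum_univ_succ, M0,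
      Fin.cons_zero, Fin.cons_succ, mul_one, one_mul, mul_ite, mul_zero, ite_mul, zero_mul,
      Finset.sum_ite_eq, Finset.mem_univ, if_true, map_add]
    rw [← h3]
    simp only [Finset.sum_add_distrib, sub_sq, Finset.sum_sub_distrib]
    have e1 : ∑ k, 2 * x k * z k = 2 * ∑ k, x k * z k := by
      rw [Finset.mul_sum]; exact Finset.sum_congr rfl fun k _ => by ring
    have e2 : ∑ k, -z k * x k = -∑ k, x k * z k := by
      rw [← Finset.sum_neg_distrib]; exact Finset.sum_congr rfl fun k _ => by ring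
    have e3 : ∑ k, x k * -z k = -∑ k, x k * z k := by
      rw [← Finset.sum_neg_distrib]; exact Finset.sum_congr rfl fun k _ => by ring
    have e4 : ∑ k, x k * x k = ∑ k, x k ^ 2 := Finset.sum_congr rfl fun k _ => by ring
    rw [e1, e2, e3, e4]; ring
  refine isRamsey_of_real_tensor A
    (fun a b => M0 a b ⊗ₜ[ℚ] (1 : ℝ) - ∑ x ∈ A, e x * (ℓ x a ⊗ₜ[ℚ] ℓ' x b)) ?_ ?_
  · intro y hy
    have h4 : ∀ x, ∑ a, ∑ b, ((Fin.cons 1 y : Fin (d + 1) → ℝ) a ⊗ₜ[ℚ] (1 : ℝ)) *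
        (e x * (ℓ x a ⊗ₜ[ℚ] ℓ' x b)) * ((1 : ℝ) ⊗ₜ[ℚ] (Fin.cons 1 y : Fin (d + 1) → ℝ) b) =
        e x * ((∑ a, ℓ x a * (Fin.cons 1 y : Fin (d + 1) → ℝ) a) ⊗ₜ[ℚ]
          (∑ a, ℓ' x a * (Fin.cons 1 y : Fin (d + 1) → ℝ) a)) := by
      intro x
      rw [TensorProduct.sum_tmul, Finset.mul_sum]
      refine Finset.sum_congr rfl fun a _ => ?_
      rw [TensorProduct.tmul_sum, Finset.mul_sum]
      refine Finset.sum_congr rfl fun b _ => ?_
      rw [mul_left_comm, mul_assoc]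
      simp [mul_comm]
    simp only [mul_sub, sub_mul, Finset.sum_sub_distrib, Finset.mul_sum, Finset.sum_mul]
    rw [sub_eq_zero]
    change e y = _
    simp_rw [Finset.sum_comm (t := A)]
    rw [Finset.sum_congr rfl (fun x _ => h4 x), Finset.sum_eq_single y]
    · rw [h1 y hy, h1' y hy, ← Algebra.TensorProduct.one_def, mul_one]
    · intro x hx hxy
      rcases h0 x hx y hy hxy.symm with h | h <;> simp [h]
    · intro h; exact absurd hy h
  · intro k l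
    rw [map_sub, map_sum, Finset.sum_eq_zero, sub_zero]
    · simp [M0]
    · intro x hx
      rw [map_mul, he x hx, zero_mul]

lemma exists_sep_pair {d : ℕ} {z : EuclideanSpace ℝ (Fin d)} {ρ : ℝ}
    {x y y' : EuclideanSpace ℝ (Fin d)} (hx : dist x z = ρ) (hy : dist y z = ρ)
    (hy' : dist y' z = ρ) (hxy : y ≠ x) (hxy' : y' ≠ x) :
    ∃ ℓ : Fin (d + 1) → ℝ, ∑ a, ℓ a * (Fin.cons 1 x : Fin (d + 1) → ℝ) a = 1 ∧
      ∑ a, ℓ a * (Fin.cons 1 y : Fin (d + 1) → ℝ) a = 0 ∧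
      ∑ a, ℓ a * (Fin.cons 1 y' : Fin (d + 1) → ℝ) a = 0 := by
  have hnot : x - y ∉ Submodule.span ℝ {y' - y} := by
    rw [Submodule.mem_span_singleton]
    rintro ⟨t, ht⟩
    have e1 : x - z = (y - z) + t • (y' - y) := by rw [ht]; abel
    have e2 : y' - z = (y - z) + (y' - y) := by abel
    rw [dist_eq_norm] at hx hy hy'
    have n1 := norm_add_sq_real (y - z) (t • (y' - y))
    have n2 := norm_add_sq_real (y - z) (y' - y)
    rw [← e1, hx, hy, inner_smul_right, norm_smul, mul_pow, Real.norm_eq_abs, sq_abs] at n1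
    rw [← e2, hy', hy] at n2
    have h3 : t * (t - 1) * ‖y' - y‖ ^ 2 = 0 := by
      linear_combination -n1 + t * n2
    rcases mul_eq_zero.mp h3 with h | h
    · rcases mul_eq_zero.mp h with h | h
      · rw [h, zero_smul] at ht
        exact hxy (sub_eq_zero.mp ht.symm).symm
      · rw [sub_eq_zero.mp h, one_smul] at ht
        exact hxy' (sub_left_injective ht)
    · have : y' - y = 0 := by simpa using h
      rw [this, smul_zero] at ht
      exact hxy (sub_eq_zero.mp ht.symm).symm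
  obtain ⟨f, hf1, hf2⟩ := Submodule.exists_dual_map_eq_bot_of_notMem hnot inferInstance
  have hf3 : f (y' - y) = 0 := by
    have : f (y' - y) ∈ (Submodule.span ℝ {y' - y}).map f :=
      Submodule.mem_map_of_mem (Submodule.mem_span_singleton_self _)
    rwa [hf2, Submodule.mem_bot] at this
  have hdec : ∀ w : EuclideanSpace ℝ (Fin d),
      f w = ∑ a : Fin d, f (EuclideanSpace.single a (1 : ℝ)) * w a := by
    intro w
    have : w = ∑ a : Fin d, w a • EuclideanSpace.single a (1 : ℝ) := by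
      ext k
      simp [Pi.single_apply]
    conv_lhs => rw [this]
    simp [mul_comm]
  have key : ∀ w : EuclideanSpace ℝ (Fin d),
      ∑ a, (Fin.cons (-f y / f (x - y)) (fun k => f (EuclideanSpace.single k 1) / f (x - y)) :
        Fin (d + 1) → ℝ) a * (Fin.cons 1 w : Fin (d + 1) → ℝ) a = f (w - y) / f (x - y) := by
    intro w
    rw [Fin.sum_univ_succ, map_sub f w, hdec w, sub_div, Finset.sum_div]
    simp only [Fin.cons_zero, Fin.cons_succ]
    rw [add_comm, sub_eq_add_neg]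
    congr 1
    · exact Finset.sum_congr rfl fun k _ => by ring
    · ring
  refine ⟨_, (key x).trans ?_, (key y).trans ?_, (key y').trans ?_⟩
  · rw [div_self hf1]
  · simp
  · rw [hf3, zero_div]

lemma exists_sep_set {d : ℕ} {z : EuclideanSpace ℝ (Fin d)} {ρ : ℝ}
    {x : EuclideanSpace ℝ (Fin d)} (hx : dist x z = ρ) (B : Finset (EuclideanSpace ℝ (Fin d)))
    (hB : B.card ≤ 2) (hBz : ∀ y ∈ B, dist y z = ρ) (hBx : ∀ y ∈ B, y ≠ x) :
    ∃ ℓ : Fin (d + 1) → ℝ, ∑ a, ℓ a * (Fin.cons 1 x : Fin (d + 1) → ℝ) a = 1 ∧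
      ∀ y ∈ B, ∑ a, ℓ a * (Fin.cons 1 y : Fin (d + 1) → ℝ) a = 0 := by
  classical
  rcases B.eq_empty_or_nonempty with rfl | ⟨y, hy⟩
  · exact ⟨Fin.cons 1 0, by simp [Fin.sum_univ_succ], by simp⟩
  obtain ⟨y', hy', hyy⟩ : ∃ y' ∈ B, ∀ w ∈ B, w = y ∨ w = y' := by
    have h1 : (B.erase y).card ≤ 1 := by rw [Finset.card_erase_of_mem hy]; omega
    rcases (B.erase y).eq_empty_or_nonempty with h | ⟨j, hj⟩
    · refine ⟨y, hy, fun k hk => Or.inl ?_⟩
      by_contra hki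
      have : k ∈ B.erase y := Finset.mem_erase.mpr ⟨hki, hk⟩
      simp [h] at this
    · refine ⟨j, Finset.mem_of_mem_erase hj, fun k hk => ?_⟩
      by_cases hki : k = y
      · exact Or.inl hki
      · exact Or.inr (Finset.card_le_one.mp h1 _ (Finset.mem_erase.mpr ⟨hki, hk⟩) _ hj)
  obtain ⟨ℓ, h1, h2, h3⟩ := exists_sep_pair hx (hBz y hy) (hBz y' hy') (hBx y hy) (hBx y' hy')
  refine ⟨ℓ, h1, fun w hw => ?_⟩
  rcases hyy w hw with rfl | rfl
  exacts [h2, h3]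

theorem isRamsey_of_card_le_five {d : ℕ} (A : Finset (EuclideanSpace ℝ (Fin d)))
    (hA : EuclideanGeometry.Cospherical (A : Set (EuclideanSpace ℝ (Fin d)))) (h5 : A.card ≤ 5) :
    IsRamsey A := by
  classical
  obtain ⟨z, ρ, hz⟩ := hA
  have key : ∀ x : EuclideanSpace ℝ (Fin d), ∃ ℓ ℓ' : Fin (d + 1) → ℝ, x ∈ A →
      ∑ a, ℓ a * (Fin.cons 1 x : Fin (d + 1) → ℝ) a = 1 ∧
      ∑ a, ℓ' a * (Fin.cons 1 x : Fin (d + 1) → ℝ) a = 1 ∧
      ∀ y ∈ A, y ≠ x → ∑ a, ℓ a * (Fin.cons 1 y : Fin (d + 1) → ℝ) a = 0 ∨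
        ∑ a, ℓ' a * (Fin.cons 1 y : Fin (d + 1) → ℝ) a = 0 := by
    intro x
    by_cases hx : x ∈ A
    swap
    · exact ⟨0, 0, fun h => absurd h hx⟩
    have hc : (A.erase x).card ≤ 4 := by rw [Finset.card_erase_of_mem hx]; omega
    obtain ⟨B, hB, hBc⟩ := Finset.exists_subset_card_eq (s := A.erase x)
      (n := min 2 (A.erase x).card) (min_le_right _ _)
    obtain ⟨ℓ, h1, h2⟩ := exists_sep_set (hz x hx) B (by omega)
      (fun y hy => hz y (Finset.mem_of_mem_erase (hB hy)))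
      (fun y hy => (Finset.mem_erase.mp (hB hy)).1)
    obtain ⟨ℓ', h1', h2'⟩ := exists_sep_set (hz x hx) (A.erase x \ B)
      (by rw [Finset.card_sdiff_of_subset hB]; omega)
      (fun y hy => hz y (Finset.mem_of_mem_erase (Finset.mem_sdiff.mp hy).1))
      (fun y hy => (Finset.mem_erase.mp (Finset.mem_sdiff.mp hy).1).1)
    refine ⟨ℓ, ℓ', fun _ => ⟨h1, h1', fun y hy hyx => ?_⟩⟩
    by_cases hyB : y ∈ B
    · exact Or.inl (h2 y hyB)
    · exact Or.inr (h2' y (Finset.mem_sdiff.mpr ⟨Finset.mem_erase.mpr ⟨hyx, hy⟩, hyB⟩))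
  choose ℓ ℓ' h using key
  exact isRamsey_of_two_hyperplanes A ⟨z, ρ, hz⟩ ℓ ℓ' (fun x hx => (h x hx).1)
    (fun x hx => (h x hx).2.1) (fun x hx => (h x hx).2.2)

end Vale.Agent.P058
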