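import Mathlib.NumberTheory.Real.Irrational
import Vale.Agent.P058.Five

/-!
A cyclic kite that is Ramsey but not subtransitive.
-/

namespace Vale.Agent.P058

variable {ι : Type*}

lemma deg_apply (U : List (ι → ℝ)) (i j : ι) :
    deg U i j = (U.map (fun w => (w i - w j) ^ 2)).sum := by
  induction U with
  | nil => simp
  | cons w U ih => simp [ih, degc]

lemma list_sum_nonpos {α : Type*} (U : List α) (g : α → ℝ) (h : ∀ w ∈ U, g w ≤ 0) :
    (U.map g).sum ≤ 0 := by
  induction U with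
  | nil => simp
  | cons w U ih =>
    rw [List.map_cons, List.sum_cons]
    have h1 := h w List.mem_cons_self
    have h2 := ih (fun v hv => h v (List.mem_cons_of_mem _ hv))
    linarith

lemma list_eq_zero_of_sum {α : Type*} (U : List α) (g : α → ℝ) (h : ∀ w ∈ U, g w ≤ 0)
    (h0 : (U.map g).sum = 0) : ∀ w ∈ U, g w = 0 := by
  induction U with
  | nil => simp
  | cons w U ih =>
    rw [List.map_cons, List.sum_cons] at h0
    have h1 := h w List.mem_cons_self
    have h2 := list_sum_nonpos U g (fun v hv => h v (List.mem_cons_of_mem _ hv))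
    intro v hv
    rcases List.mem_cons.mp hv with rfl | hv
    · linarith
    · exact ih (fun v hv => h v (List.mem_cons_of_mem _ hv)) (by linarith) v hv

lemma kite_columns (U : List (ι → ℝ)) (i1 i2 i3 i4 : ι)
    (hp : ∀ i j, (U.map (· i)).Perm (U.map (· j)))
    (hrel : ∀ w ∈ U, w i3 + w i4 = (2 - √2) * w i1 + √2 * w i2) :
    ∀ w ∈ U, w i1 = w i2 := by
  intro w0 hw0
  by_contra hne
  obtain ⟨θ, hθ⟩ := Module.Projective.exists_dual_eq_one ℚ (V := ℝ) (sub_ne_zero.mpr hne)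
  have hs : (√2 : ℝ) * √2 = 2 := Real.mul_self_sqrt (by norm_num)
  have hs0 : (0 : ℝ) < √2 := by positivity
  let ψ : ℝ → ℝ := fun x => √2 * (θ x : ℝ) - (θ (√2 * x) : ℝ)
  have hadd : ∀ x y, ψ (x + y) = ψ x + ψ y := by
    intro x y; simp only [ψ, mul_add, map_add]; push_cast; ring
  have hsub : ∀ x y, ψ (x - y) = ψ x - ψ y := by
    intro x y; simp only [ψ, mul_sub, map_sub]; push_cast; ring
  have hsq : ∀ x, ψ (√2 * x) = -√2 * ψ x := by
    intro x
    have e : √2 * (√2 * x) = x + x := by rw [← mul_assoc, hs]; ring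
    simp only [ψ, e, map_add]; push_cast
    linear_combination (θ x : ℝ) * hs
  have hψ0 : ψ (w0 i1 - w0 i2) ≠ 0 := by
    simp only [ψ, hθ]
    intro h
    apply irrational_sqrt_two
    refine ⟨θ (√2 * (w0 i1 - w0 i2)), ?_⟩
    push_cast at h
    linarith
  have hrel' : ∀ w ∈ U, ψ (w i3) + ψ (w i4) = (2 + √2) * ψ (w i1) - √2 * ψ (w i2) := by
    intro w hw
    have e : (2 - √2) * w i1 + √2 * w i2 = (w i1 + w i1 - √2 * w i1) + √2 * w i2 := by ring
    rw [← hadd, hrel w hw, e, hadd, hsub, hadd, hsq, hsq]; ring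
  have hsum : ∀ i j, (U.map (fun w => ψ (w i) ^ 2)).sum = (U.map (fun w => ψ (w j) ^ 2)).sum := by
    intro i j
    have := ((hp i j).map (fun x => ψ x ^ 2)).sum_eq
    simpa [List.map_map, Function.comp_def] using this
  let g : (ι → ℝ) → ℝ := fun w =>
    (2 + √2) * ψ (w i1) ^ 2 - √2 * ψ (w i2) ^ 2 - ψ (w i3) ^ 2 - ψ (w i4) ^ 2
  have hg : ∀ w ∈ U, g w =
      -((√2 + 1) * (ψ (w i1) - ψ (w i2)) ^ 2 + (ψ (w i3) - ψ (w i4)) ^ 2 / 2) := by
    intro w hw
    have h := hrel' w hw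
    have e : ψ (w i4) = (2 + √2) * ψ (w i1) - √2 * ψ (w i2) - ψ (w i3) := by linarith
    simp only [g]
    rw [e]
    linear_combination (-(ψ (w i1) - ψ (w i2)) ^ 2 / 2) * hs
  have hgsum : (U.map g).sum = 0 := by
    have e : (U.map g).sum = (2 + √2) * (U.map (fun w => ψ (w i1) ^ 2)).sum -
        √2 * (U.map (fun w => ψ (w i2) ^ 2)).sum - (U.map (fun w => ψ (w i3) ^ 2)).sum -
        (U.map (fun w => ψ (w i4) ^ 2)).sum := by
      clear hp hrel hw0 hrel' hsum hg
      induction U with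
      | nil => simp
      | cons w U ih => simp only [List.map_cons, List.sum_cons, ih, g]; ring
    rw [e, hsum i2 i1, hsum i3 i1, hsum i4 i1]; ring
  have hz := list_eq_zero_of_sum U g (fun w hw => by
    rw [hg w hw]
    have : 0 ≤ (√2 + 1) * (ψ (w i1) - ψ (w i2)) ^ 2 + (ψ (w i3) - ψ (w i4)) ^ 2 / 2 := by
      positivity
    linarith) hgsum w0 hw0
  rw [hg w0 hw0, ← hsub] at hz
  have h1 : 0 < (√2 + 1) * ψ (w0 i1 - w0 i2) ^ 2 := by positivity
  have h2 : 0 ≤ (ψ (w0 i3) - ψ (w0 i4)) ^ 2 / 2 := by positivity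
  linarith

theorem exists_kite : ∃ A : Finset (EuclideanSpace ℝ (Fin 2)), A.card = 4 ∧
    EuclideanGeometry.Cospherical (A : Set (EuclideanSpace ℝ (Fin 2))) ∧ IsRamsey A ∧
    ¬ IsSubtransitive A := by
  classical
  have hs : (√2 : ℝ) * √2 = 2 := Real.mul_self_sqrt (by norm_num)
  have hs1 : (1 : ℝ) < √2 := by
    rw [Real.lt_sqrt (by norm_num)]; norm_num
  have hs2 : (√2 : ℝ) < 2 := by nlinarith
  set b : ℝ := √(2 * √2 - 2) with hb
  have hb0 : 0 < b := Real.sqrt_pos.mpr (by linarith)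
  have hb2 : b ^ 2 = 2 * √2 - 2 := Real.sq_sqrt (by linarith)
  let p1 : EuclideanSpace ℝ (Fin 2) := !₂[-1, 0]
  let p2 : EuclideanSpace ℝ (Fin 2) := !₂[1, 0]
  let p3 : EuclideanSpace ℝ (Fin 2) := !₂[√2 - 1, b]
  let p4 : EuclideanSpace ℝ (Fin 2) := !₂[√2 - 1, -b]
  have hcard : ({p1, p2, p3, p4} : Finset (EuclideanSpace ℝ (Fin 2))).card = 4 := by
    have h12 : p1 ≠ p2 := fun h => by have := congrArg (· 0) h; simp [p1, p2] at this; linarith
    have h13 : p1 ≠ p3 := fun h => by have := congrArg (· 1) h; simp [p1, p3] at this; linarith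
    have h14 : p1 ≠ p4 := fun h => by have := congrArg (· 1) h; simp [p1, p4] at this; linarith
    have h23 : p2 ≠ p3 := fun h => by have := congrArg (· 1) h; simp [p2, p3] at this; linarith
    have h24 : p2 ≠ p4 := fun h => by have := congrArg (· 1) h; simp [p2, p4] at this; linarith
    have h34 : p3 ≠ p4 := fun h => by have := congrArg (· 1) h; simp [p3, p4] at this; linarith
    rw [Finset.card_insert_of_notMem (by simp [h12, h13, h14]),
      Finset.card_insert_of_notMem (by simp [h23, h24]), Finset.card_pair h34]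
  have hsph : EuclideanGeometry.Cospherical
      (({p1, p2, p3, p4} : Finset (EuclideanSpace ℝ (Fin 2))) : Set (EuclideanSpace ℝ (Fin 2))) := by
    refine ⟨0, 1, fun p hp => ?_⟩
    rw [← sq_eq_sq₀ dist_nonneg zero_le_one, dist_sq_eq]
    simp only [Finset.coe_insert, Finset.coe_singleton, Set.mem_insert_iff,
      Set.mem_singleton_iff] at hp
    rcases hp with rfl | rfl | rfl | rfl <;> simp [p1, p2, p3, p4, Fin.sum_univ_two] <;> nlinarith
  refine ⟨{p1, p2, p3, p4}, hcard, hsph, isRamsey_of_card_le_five _ hsph (by omega), ?_⟩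
  intro h
  obtain ⟨U, s, hs0, hU, hp⟩ := h.exists_balanced
  let i1 : ({p1, p2, p3, p4} : Finset (EuclideanSpace ℝ (Fin 2))) := ⟨p1, by simp⟩
  let i2 : ({p1, p2, p3, p4} : Finset (EuclideanSpace ℝ (Fin 2))) := ⟨p2, by simp⟩
  let i3 : ({p1, p2, p3, p4} : Finset (EuclideanSpace ℝ (Fin 2))) := ⟨p3, by simp⟩
  let i4 : ({p1, p2, p3, p4} : Finset (EuclideanSpace ℝ (Fin 2))) := ⟨p4, by simp⟩
  have hd : ∀ i j, (U.map (fun w => (w i - w j) ^ 2)).sum =
      s * ∑ k, ((i : EuclideanSpace ℝ (Fin 2)) k - (j : EuclideanSpace ℝ (Fin 2)) k) ^ 2 := by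
    intro i j
    rw [← deg_apply, hU, ← dist_sq_eq]; rfl
  have hrel : ∀ w ∈ U, w i3 + w i4 = (2 - √2) * w i1 + √2 * w i2 := by
    let g : (({p1, p2, p3, p4} : Finset (EuclideanSpace ℝ (Fin 2))) → ℝ) → ℝ := fun w =>
      -((2 - √2) * w i1 + √2 * w i2 - w i3 - w i4) ^ 2
    have e : (U.map g).sum = (2 - √2) * √2 * (U.map (fun w => (w i1 - w i2) ^ 2)).sum -
        (2 - √2) * (U.map (fun w => (w i1 - w i3) ^ 2)).sum -
        (2 - √2) * (U.map (fun w => (w i1 - w i4) ^ 2)).sum -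
        √2 * (U.map (fun w => (w i2 - w i3) ^ 2)).sum -
        √2 * (U.map (fun w => (w i2 - w i4) ^ 2)).sum +
        (U.map (fun w => (w i3 - w i4) ^ 2)).sum := by
      clear hU hp hd
      induction U with
      | nil => simp
      | cons w U ih => simp only [List.map_cons, List.sum_cons, ih, g]; ring
    have e0 : (U.map g).sum = 0 := by
      rw [e, hd, hd, hd, hd, hd, hd]
      simp only [i1, i2, i3, i4, p1, p2, p3, p4, Fin.sum_univ_two, Matrix.cons_val_zero,
        Matrix.cons_val_one]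
      ring
    intro w hw
    have := list_eq_zero_of_sum U g (fun w _ => by simp only [g]; nlinarith [sq_nonneg ((2 - √2) * w i1 + √2 * w i2 - w i3 - w i4)]) e0 w hw
    simp only [g, neg_eq_zero, pow_eq_zero_iff (two_ne_zero)] at this
    linarith
  have h12 := kite_columns U i1 i2 i3 i4 hp hrel
  have h0 : (U.map (fun w => (w i1 - w i2) ^ 2)).sum = 0 := by
    apply List.sum_eq_zero
    intro x hx
    obtain ⟨w, hw, rfl⟩ := List.mem_map.mp hx
    simp [h12 w hw]
  rw [hd] at h0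
  simp [i1, i2, p1, p2, Fin.sum_univ_two, hs0.ne'] at h0
  norm_num at h0

end Vale.Agent.P058
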